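import Vale.Agent.P078.Mix.Colouring
import Vale.Agent.P078.TypeIII.Mixing

/-!
# Decay of words over a singular MASA, without a trace

Every position of a word carries one projection site. The only tool replacing the trace is that
a bounded family which is small at `Ω` is small at every vector.
-/

set_option linter.unusedSectionVars false

namespace Vale.Agent.P078.TypeIII.Singular

open ComplexInnerProductSpace
open Filter Topology
open Vale.Agent.P078 Vale.Agent.P078.General Vale.Agent.P078.Finite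
open scoped CStarAlgebra

universe u

variable {H : Type u} [NormedAddCommGroup H] [InnerProductSpace ℂ H] [CompleteSpace H]
variable {M : VonNeumannAlgebra H} {A : StarSubalgebra ℂ (H →L[ℂ] H)} {Ω : H}
variable {V : Type} [Fintype V] [DecidableEq V]

/-- Every normaliser of `A` lies in `A`. -/
def Sing (M : VonNeumannAlgebra H) (A : StarSubalgebra ℂ (H →L[ℂ] H)) : Prop :=
  ∀ v, IsNormaliser M A v → v ∈ A

/-- The letters of a word with one site at each position. -/
noncomputable def stoks (P : Part A) : List (V × (H →L[ℂ] H)) → List (Tok H V P.n)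
  | [] => []
  | x :: L => Tok.site x.1 P.e :: Tok.elt x.2 :: stoks P L

lemma stoks_append (P : Part A) : ∀ L L' : List (V × (H →L[ℂ] H)),
    stoks P (L ++ L') = stoks P L ++ stoks P L'
  | [], L' => rfl
  | x :: L, L' => by simp [stoks, stoks_append P L L']

lemma site_good (P : Part A) (v : V) : (Tok.site v P.e).Good M A :=
  ⟨fun a => ⟨P.mem a, P.proj a⟩, P.orth⟩

lemma good_stoks (P : Part A) : ∀ {L : List (V × (H →L[ℂ] H))},
    (∀ x ∈ L, x.2 ∈ M) → ∀ t ∈ stoks P L, t.Good M A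
  | [], _, t, ht => by simp [stoks] at ht
  | x :: L, hL, t, ht => by
    simp only [stoks, List.mem_cons] at ht
    rcases ht with rfl | rfl | ht
    · exact site_good P _
    · exact hL x (List.mem_cons_self ..)
    · exact good_stoks P (fun y hy => hL y (List.mem_cons_of_mem _ hy)) t ht

lemma mem_vars_stoks (P : Part A) {v : V} : ∀ L : List (V × (H →L[ℂ] H)),
    v ∈ vars (stoks P L) ↔ v ∈ L.map Prod.fst
  | [] => by simp [stoks, vars]
  | x :: L => by simp [stoks, vars, mem_vars_stoks P L]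

/-- The product of the norms of the fixed elements. -/
noncomputable def ssize (L : List (V × (H →L[ℂ] H))) : ℝ := (L.map (fun x => ‖x.2‖)).prod

lemma size_stoks (P : Part A) : ∀ L : List (V × (H →L[ℂ] H)), size (stoks P L) = ssize L
  | [] => rfl
  | x :: L => by simp [stoks, size, size_stoks P L, ssize]

/-- Cauchy–Schwarz between the outside and the inside. -/
lemma norm_sum_inner_le' {n : ℕ} {R S : List (Tok H V n)} (hR : ∀ t ∈ R, t.Good M A)
    (hcov : ∀ v, v ∈ vars R ∨ v ∈ vars S)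
    (horth : ∀ g : V → Fin n, ‖∑ k ∈ Env (vars S \ vars R) g, eval k S Ω‖ ^ 2
      = ∑ k ∈ Env (vars S \ vars R) g, ‖eval k S Ω‖ ^ 2) (base : V → Fin n) :
    ‖∑ g : V → Fin n, ⟪eval g R Ω, eval g S Ω⟫‖
      ≤ size R * ‖Ω‖ * Real.sqrt (msum Ω S base) := by
  set O := vars R ∩ vars S with hO
  set IR := vars R \ O with hIR
  set IS := vars S \ vars R with hIS
  have hd1 : Disjoint O (IR ∪ IS) := by
    rw [Finset.disjoint_left]; intro w; simp [hO, hIR, hIS]; tauto
  have hd2 : Disjoint IR IS := by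
    rw [Finset.disjoint_left]; intro w; simp [hIR, hIS]; tauto
  have hu : (Finset.univ : Finset V) = O ∪ (IR ∪ IS) := by
    ext w; have := hcov w; simp [hO, hIR, hIS]; tauto
  have hsplit : ∑ g : V → Fin n, ⟪eval g R Ω, eval g S Ω⟫
      = ∑ g ∈ Env O base, ⟪∑ k ∈ Env IR g, eval k R Ω, ∑ k ∈ Env IS g, eval k S Ω⟫ := by
    rw [← Env_univ base, hu, sum_Env_union hd1]
    refine Finset.sum_congr rfl (fun g _ => ?_)
    rw [sum_Env_union hd2, sum_inner]
    refine Finset.sum_congr rfl (fun k hk => ?_)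
    rw [← sum_Env_congr (D := vars S) (g := k) (g' := g)
      (f := fun j => eval j S Ω) (fun j j' hj => by rw [eval_congr hj])
      (fun w hw hw' => mem_Env.1 hk w (by
        simp [hIR, hIS, hO] at hw' ⊢; tauto)), inner_sum]
    refine Finset.sum_congr rfl (fun j hj => ?_)
    rw [eval_congr (L := R) (g := j) (g' := k)
      (fun w hw => mem_Env.1 hj w (by simp [hIS, hw]))]
  rw [hsplit]
  have hA1 := word_bound hR (O := O) (Finset.inter_subset_left) base Ω
  rw [← hIR] at hA1
  have hA2 : ∑ g ∈ Env O base, ‖∑ k ∈ Env IS g, eval k S Ω‖ ^ 2 = msum Ω S base := by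
    simp only [hIS] at horth ⊢
    simp only [horth]
    rw [← sum_Env_union (by rw [Finset.disjoint_left]; intro w; simp [hO]; tauto), msum]
    congr 2
    ext w; simp [hO]; tauto
  refine (norm_sum_le _ _).trans ((Finset.sum_le_sum (fun g _ => norm_inner_le_norm _ _)).trans
    ((Real.sum_mul_le_sqrt_mul_sqrt _ _ _).trans ?_))
  rw [hA2]
  refine mul_le_mul_of_nonneg_right ((Real.sqrt_le_sqrt hA1).trans (le_of_eq ?_)) (Real.sqrt_nonneg _)
  rw [Real.sqrt_mul (sq_nonneg _), Real.sqrt_sq (size_nonneg R), Real.sqrt_sq (norm_nonneg _)]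

/-- The split at the last position whose variable recurs later. -/
lemma exists_last_repeat : ∀ {L : List (V × (H →L[ℂ] H))}, ¬ (L.map Prod.fst).Nodup →
    ∃ pre x suf, L = pre ++ x :: suf ∧ x.1 ∈ suf.map Prod.fst ∧ (suf.map Prod.fst).Nodup
  | [], hn => absurd List.nodup_nil hn
  | x :: L, hn => by
    by_cases hL : (L.map Prod.fst).Nodup
    · refine ⟨[], x, L, rfl, ?_, hL⟩
      by_contra hx
      exact hn (by rw [List.map_cons, List.nodup_cons]; exact ⟨hx, hL⟩)
    · obtain ⟨pre, y, suf, rfl, h1, h2⟩ := exists_last_repeat hL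
      exact ⟨x :: pre, y, suf, rfl, h1, h2⟩

/-- A middle projection summed out. -/
lemma sum_middle_le (P : Part A) {E x : H →L[ℂ] H} (hE : IsStarProjection E) (ξ : H) :
    ∑ c, ‖(E * x * P.e c) ξ‖ ^ 2 ≤ ‖ξ‖ * ‖P.pinch (star x * E * x) ξ‖ := by
  have e : ∀ c, ‖(E * x * P.e c) ξ‖ ^ 2
      = (⟪ξ, (P.e c * (star x * E * x) * P.e c) ξ⟫).re := fun c => by
    rw [@norm_sq_eq_re_inner ℂ, RCLike.re_to_complex, inner_apply]
    simp only [star_mul, hE.isSelfAdjoint.star_eq, (P.proj c).isSelfAdjoint.star_eq, mul_assoc]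
    rw [← mul_assoc E E, hE.isIdempotentElem.eq]
  simp only [e]
  rw [← Complex.re_sum, ← inner_sum, ← _root_.sum_apply]
  exact (Complex.re_le_norm _).trans (norm_inner_le_norm _ _)

/-- The bound of the family `I ↦ P.pinch (x* e_I x)`. -/
lemma sum_pinch_sandwich_le (P P1 : Part A) (x : H →L[ℂ] H) (v : H) :
    ∑ I, ‖P.pinch (star x * P1.e I * x) v‖ ^ 2 ≤ (‖x‖ ^ 2) ^ 2 * ‖v‖ ^ 2 := by
  have e : ∀ I, ‖P.pinch (star x * P1.e I * x) v‖ ^ 2
      ≤ ∑ c, ‖x‖ ^ 2 * ‖P1.e I (x (P.e c v))‖ ^ 2 := fun I => by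
    simp only [Part.pinch, _root_.sum_apply, mul_apply_eq_comp]
    rw [norm_sq_sum_left Finset.univ P.e P.proj P.orth
      (fun c => star x (P1.e I (x (P.e c v))))]
    refine Finset.sum_le_sum (fun c _ => ?_)
    rw [← mul_pow]
    refine pow_le_pow_left₀ (norm_nonneg _) ((proj_norm_le (P.proj c) _).trans ?_) 2
    refine ((star x).le_opNorm _).trans (le_of_eq ?_)
    rw [norm_star]
  refine (Finset.sum_le_sum (fun I _ => e I)).trans ?_
  rw [Finset.sum_comm]
  calc ∑ c, ∑ I, ‖x‖ ^ 2 * ‖P1.e I (x (P.e c v))‖ ^ 2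
      = ∑ c, ‖x‖ ^ 2 * ‖x (P.e c v)‖ ^ 2 := by
        refine Finset.sum_congr rfl (fun c _ => ?_)
        rw [← Finset.mul_sum, P1.norm_sq_sum]
    _ ≤ ∑ c, ‖x‖ ^ 2 * (‖x‖ ^ 2 * ‖P.e c v‖ ^ 2) := Finset.sum_le_sum (fun c _ =>
        mul_le_mul_of_nonneg_left (by
          rw [← mul_pow]; exact pow_le_pow_left₀ (norm_nonneg _) (x.le_opNorm _) 2) (sq_nonneg _))
    _ = _ := by rw [← Finset.mul_sum, ← Finset.mul_sum, P.norm_sq_sum]; ring

variable (h : CentSetting M A Ω)
include h

/-- **Uniform smallness along a word.** A family small at `Ω` stays small after a word without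
repeated variables. -/
theorem exists_eps_word : ∀ {L : List (V × (H →L[ℂ] H))}, (∀ x ∈ L, x.2 ∈ M) →
    (L.map Prod.fst).Nodup → ∀ {y : H →L[ℂ] H}, y ∈ M → ∀ {C η : ℝ}, 0 ≤ C → 0 < η →
      ∃ ε, 0 < ε ∧ ∀ (P : Part A) (base : V → Fin P.n) (ι : Type) (_ : Fintype ι)
        (T : ι → (H →L[ℂ] H)), (∀ i, T i ∈ M) →
        (∀ v, ∑ i, ‖T i v‖ ^ 2 ≤ C ^ 2 * ‖v‖ ^ 2) → ∑ i, ‖T i Ω‖ ^ 2 ≤ ε →
          ∑ i, ∑ g ∈ Env (vars (stoks P L)) base,
            ‖T i (eval g (Tok.elt y :: stoks P L) Ω)‖ ^ 2 ≤ η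
  | [], _, _, y, hy, C, η, hC, hη => by
    obtain ⟨ε, hε, hfam⟩ := exists_eps_family h (y Ω) hC hη
    refine ⟨ε, hε, fun P base ι _ T hT hbd hs => ?_⟩
    simpa [stoks, vars, Env_empty, eval_cons, Tok.val] using hfam ι inferInstance T hT hbd hs
  | (w, y') :: L, hL, hnd, y, hy, C, η, hC, hη => by
    have hA := h.masa
    rw [List.map_cons, List.nodup_cons] at hnd
    obtain ⟨ε', hε', ih⟩ := exists_eps_word (fun x hx => hL x (List.mem_cons_of_mem _ hx)) hnd.2
      (hL _ (List.mem_cons_self ..)) (C := C * ‖y‖) (η := η) (by positivity) hη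
    obtain ⟨ε, hε, hfam⟩ := exists_eps_family h (y Ω) hC hε'
    refine ⟨ε, hε, fun P base ι _ T hT hbd hs => ?_⟩
    have hw : w ∉ vars (stoks P L) := fun hc => hnd.1 ((mem_vars_stoks P L).1 hc)
    have key := ih P base (ι × Fin P.n) inferInstance (fun p => T p.1 * y * P.e p.2)
      (fun p => mul_mem (mul_mem (hT p.1) hy) (hA.mem_M (P.mem p.2))) (fun v => ?_) ?_
    · refine le_trans (le_of_eq ?_) key
      rw [Fintype.sum_prod_type]
      refine Finset.sum_congr rfl (fun i _ => ?_)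
      simp only [stoks, vars]
      rw [sum_Env_insert hw]
      refine Finset.sum_congr rfl (fun a _ => ?_)
      refine (Finset.sum_congr rfl (fun g hg => ?_)).trans
        (sum_Env_congr (D := vars (stoks P L))
          (f := fun g => ‖(T i * y * P.e a) (eval g (Tok.elt y' :: stoks P L) Ω)‖ ^ 2)
          (fun k k' hk => by
            rw [eval_congr (L := Tok.elt y' :: stoks P L) (g := k) (g' := k') hk])
          (fun v hv hv' => absurd hv hv'))
      have hga : g w = a := by rw [mem_Env.1 hg w hw, Function.update_self]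
      simp [eval_cons, Tok.val, hga]
    · rw [Fintype.sum_prod_type, Finset.sum_comm]
      refine (Finset.sum_le_sum (fun a _ => hbd (y (P.e a v)))).trans ?_
      calc ∑ a, C ^ 2 * ‖y (P.e a v)‖ ^ 2 ≤ ∑ a, C ^ 2 * (‖y‖ ^ 2 * ‖P.e a v‖ ^ 2) :=
            Finset.sum_le_sum (fun a _ => mul_le_mul_of_nonneg_left (by
              rw [← mul_pow]; exact pow_le_pow_left₀ (norm_nonneg _) (y.le_opNorm _) 2)
              (sq_nonneg _))
        _ = _ := by rw [← Finset.mul_sum, ← Finset.mul_sum, P.norm_sq_sum]; ring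
    · rw [Fintype.sum_prod_type]
      refine (Finset.sum_le_sum (fun i _ => norm_sq_sum_right_le h Finset.univ P.e P.mem P.proj
        P.orth (mul_mem (hT i) hy))).trans ?_
      exact hfam ι inferInstance T hT hbd hs

/-- Two adjacent sites of one variable. -/
lemma msum_adjacent_small {x z : H →L[ℂ] H} {post : List (V × (H →L[ℂ] H))} {v : V}
    (hx : x ∈ M) (hx0 : plim h.masa x = 0) (hz : z ∈ M) (hpost : ∀ y ∈ post, y.2 ∈ M)
    (hnd : ((v, z) :: post).map Prod.fst |>.Nodup) {η : ℝ} (hη : 0 < η) :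
    ∃ P0 : Part A, ∀ P, P0 ≤ P → ∀ base : V → Fin P.n,
      msum Ω (stoks P ((v, x) :: (v, z) :: post)) base ≤ η := by
  have hA := h.masa
  rw [List.map_cons, List.nodup_cons] at hnd
  obtain ⟨ε, hε, hfam⟩ := exists_eps_word h hpost hnd.2 hz (C := ‖x‖) (norm_nonneg _) hη
  obtain ⟨P0, hP0⟩ := tendsto_pinch h hx (Real.sqrt_pos.2 hε)
  refine ⟨P0, fun P hP base => ?_⟩
  have hv : v ∉ vars (stoks P post) := fun hc => hnd.1 ((mem_vars_stoks P post).1 hc)
  have key := hfam P base (Fin P.n) inferInstance (fun a => P.e a * x * P.e a)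
    (fun a => mul_mem (mul_mem (hA.mem_M (P.mem a)) hx) (hA.mem_M (P.mem a))) (fun u => ?_) ?_
  · refine le_trans (le_of_eq ?_) key
    simp only [msum, stoks, vars, Finset.insert_idem]
    rw [sum_Env_insert hv]
    refine Finset.sum_congr rfl (fun a _ => ?_)
    refine (Finset.sum_congr rfl (fun g hg => ?_)).trans
      (sum_Env_congr (D := vars (stoks P post))
        (f := fun g => ‖(P.e a * x * P.e a) (eval g (Tok.elt z :: stoks P post) Ω)‖ ^ 2)
        (fun k k' hk => by
          rw [eval_congr (L := Tok.elt z :: stoks P post) (g := k) (g' := k') hk])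
        (fun w hw hw' => absurd hw hw'))
    have hga : g v = a := by rw [mem_Env.1 hg v hv, Function.update_self]
    simp [eval_cons, Tok.val, hga]
  · calc ∑ a, ‖(P.e a * x * P.e a) u‖ ^ 2 ≤ ∑ a, ‖x‖ ^ 2 * ‖P.e a u‖ ^ 2 :=
          Finset.sum_le_sum (fun a _ => by
            rw [← mul_pow]
            exact pow_le_pow_left₀ (norm_nonneg _)
              ((proj_norm_le (P.proj a) _).trans (x.le_opNorm _)) 2)
      _ = _ := by rw [← Finset.mul_sum, P.norm_sq_sum]
  · have h1 := hP0 P hP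
    rw [hx0, sub_zero] at h1
    refine le_trans (le_of_eq ?_)
      ((pow_le_pow_left₀ (norm_nonneg _) h1 2).trans (Real.sq_sqrt hε.le).le)
    simp only [Part.pinch, _root_.sum_apply, mul_apply_eq_comp]
    rw [norm_sq_sum_left Finset.univ P.e P.proj P.orth (fun a => x (P.e a Ω))]

/-- Two sites of one variable around a site of a second one. -/
lemma msum_separated_small (hsing : Sing M A) {x z yb : H →L[ℂ] H}
    {rest post : List (V × (H →L[ℂ] H))} {v b : V} (hx : x ∈ M) (hx0 : plim h.masa x = 0)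
    (hyb : yb ∈ M) (hrest : ∀ y ∈ rest ++ (v, z) :: post, y.2 ∈ M)
    (hnd : (((b, yb) :: rest) ++ (v, z) :: post).map Prod.fst |>.Nodup) {η : ℝ} (hη : 0 < η) :
    ∃ P0 : Part A, ∀ P, P0 ≤ P → ∀ base : V → Fin P.n,
      msum Ω (stoks P ((v, x) :: (b, yb) :: (rest ++ (v, z) :: post))) base ≤ η := by
  have hA := h.masa
  rw [List.cons_append, List.map_cons, List.nodup_cons] at hnd
  set L := rest ++ (v, z) :: post with hL
  set K := (‖yb‖ * ssize L * ‖Ω‖) ^ 2 with hK
  obtain ⟨ε, hε, hfam⟩ := exists_eps_word h hrest hnd.2 hyb (C := ‖x‖ ^ 2) (η := η ^ 2 / (K + 1))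
    (sq_nonneg _) (by positivity)
  have hxN : OrthN M A Ω x := orthN_of_plim h hx (fun w hw => by
    rw [plim_mul_left hA (star_mem (hsing w hw)), hx0, mul_zero])
  obtain ⟨P1, hP1⟩ := exists_qval_le h hx hxN (η := ε / 4) (by positivity)
  set Y := fun I => star x * P1.e I * x with hY
  have hYM : ∀ I, Y I ∈ M := fun I =>
    mul_mem (mul_mem (star_mem hx) (hA.mem_M (P1.mem I))) hx
  choose Q hQ using fun I => tendsto_pinch h (hYM I)
    (show 0 < Real.sqrt (ε / (4 * ((P1.n : ℝ) + 1))) by positivity)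
  have := hA.directed
  obtain ⟨R, hR⟩ := Finite.exists_le Q
  obtain ⟨P0, hP0a, hP0b⟩ := hA.exists_join R P1
  refine ⟨P0, fun P hP base => ?_⟩
  have hTM : ∀ I, P.pinch (Y I) ∈ M := fun I => pinch_mem hA (hYM I) P
  have hsmall : ∑ I, ‖P.pinch (Y I) Ω‖ ^ 2 ≤ ε := by
    have hI : ∀ I, ‖P.pinch (Y I) Ω‖ ^ 2
        ≤ 2 * ‖plim hA (Y I) Ω‖ ^ 2 + 2 * (ε / (4 * ((P1.n : ℝ) + 1))) := fun I => by
      have h1 := pow_le_pow_left₀ (norm_nonneg _) (hQ I P (((hR I).trans hP0a).trans hP)) 2
      rw [Real.sq_sqrt (by positivity), sub_apply] at h1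
      have h2 := norm_add_le (P.pinch (Y I) Ω - plim hA (Y I) Ω) (plim hA (Y I) Ω)
      rw [sub_add_cancel] at h2
      nlinarith [norm_nonneg (P.pinch (Y I) Ω), norm_nonneg (P.pinch (Y I) Ω - plim hA (Y I) Ω),
        norm_nonneg (plim hA (Y I) Ω), sq_nonneg (‖P.pinch (Y I) Ω - plim hA (Y I) Ω‖
          - ‖plim hA (Y I) Ω‖)]
    refine (Finset.sum_le_sum (fun I _ => hI I)).trans ?_
    rw [Finset.sum_add_distrib, ← Finset.mul_sum, Finset.sum_const, Finset.card_univ,
      Fintype.card_fin, nsmul_eq_mul]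
    have h2 : (P1.n : ℝ) * (2 * (ε / (4 * ((P1.n : ℝ) + 1)))) ≤ ε / 2 := by
      have hn : (0 : ℝ) ≤ P1.n := Nat.cast_nonneg _
      rw [mul_div_assoc', mul_div_assoc', div_le_iff₀ (by positivity)]
      nlinarith
    have h3 : ∑ I, ‖plim hA (Y I) Ω‖ ^ 2 ≤ ε / 4 := hP1
    linarith
  have key := hfam P base (Fin P1.n) inferInstance (fun I => P.pinch (Y I)) hTM
    (fun u => sum_pinch_sandwich_le P P1 x u) hsmall
  choose π hπ using hP0b.trans hP
  have hb : b ∉ vars (stoks P L) := fun hc => hnd.1 ((mem_vars_stoks P L).1 hc)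
  have hv : v ∈ vars (stoks P L) := (mem_vars_stoks P L).2 (by simp [hL])
  set W : List (Tok H V P.n) := Tok.elt yb :: stoks P L with hW
  have hWg : ∀ t ∈ W, t.Good M A := by
    intro t ht
    rcases List.mem_cons.1 ht with rfl | ht
    exacts [hyb, good_stoks P hrest t ht]
  set D := Env (vars (stoks P L)) base with hD
  set ξ := fun k => eval k W Ω with hξ
  have hb1 : ∑ k ∈ D, ‖ξ k‖ ^ 2 ≤ K := by
    have := word_bound hWg (O := vars (stoks P L)) (by simp [hW, vars]) base Ω
    simp only [hW, vars, Finset.sdiff_self, Env_empty, Finset.sum_singleton, size,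
      size_stoks] at this
    rw [hK, mul_pow]
    exact this
  have hexp : msum Ω (stoks P ((v, x) :: (b, yb) :: L)) base
      ≤ ∑ k ∈ D, ∑ c, ‖(P1.e (π (k v)) * x * P.e c) (ξ k)‖ ^ 2 := by
    have hvars : vars (stoks P ((v, x) :: (b, yb) :: L)) = insert b (vars (stoks P L)) := by
      simp only [stoks, vars]
      exact Finset.insert_eq_of_mem (Finset.mem_insert_of_mem hv)
    rw [msum, hvars, sum_Env_insert hb, Finset.sum_comm (s := D)]
    refine Finset.sum_le_sum (fun c _ => ?_)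
    refine le_trans (Finset.sum_le_sum (g := fun k => ‖(P1.e (π (k v)) * x * P.e c) (ξ k)‖ ^ 2)
      (fun k hk => ?_)) (le_of_eq (sum_Env_congr (D := vars (stoks P L))
        (fun k k' hkk => ?_) (fun w hw hw' => absurd hw hw')))
    · have hc : k b = c := by rw [mem_Env.1 hk b hb, Function.update_self]
      refine pow_le_pow_left₀ (norm_nonneg _) ?_ 2
      simp only [stoks, eval_cons, Tok.val, hc, hξ, hW, mul_apply_eq_comp]
      conv_lhs => rw [← hπ (k v), hA.comm (P1.mem _) (P.mem _), mul_apply_eq_comp]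
      exact proj_norm_le (P.proj _) _
    · simp only [hξ, hkk v hv]
      rw [eval_congr (L := W) (g := k) (g' := k') (fun w hw => hkk w (by simpa [hW, vars] using hw))]
  have hb2 : ∑ k ∈ D, ‖P.pinch (Y (π (k v))) (ξ k)‖ ^ 2 ≤ η ^ 2 / (K + 1) := by
    refine le_trans ?_ key
    rw [Finset.sum_comm]
    exact Finset.sum_le_sum (fun k _ => Finset.single_le_sum
      (f := fun I => ‖P.pinch (Y I) (ξ k)‖ ^ 2) (fun I _ => sq_nonneg _) (Finset.mem_univ _))
  refine hexp.trans ((Finset.sum_le_sum (fun k _ =>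
    sum_middle_le P (P1.proj _) (ξ k))).trans ?_)
  refine (Real.sum_mul_le_sqrt_mul_sqrt _ _ _).trans ?_
  refine (mul_le_mul (Real.sqrt_le_sqrt hb1) (Real.sqrt_le_sqrt hb2) (Real.sqrt_nonneg _)
    (Real.sqrt_nonneg _)).trans ?_
  rw [← Real.sqrt_mul (sq_nonneg _), Real.sqrt_le_left hη.le, mul_div_assoc',
    div_le_iff₀ (by positivity)]
  nlinarith [sq_nonneg η]

/-- **Decay.** A word in which each variable is repeated and the inner elements are killed by
`plim` tends to zero against every vector of `MΩ`. -/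
theorem exists_word_small (hsing : Sing M A) {L : List (V × (H →L[ℂ] H))}
    (hne : L ≠ []) (hgood : ∀ x ∈ L, x.2 ∈ M) (h0 : ∀ x ∈ L.dropLast, plim h.masa x.2 = 0)
    (hcount : ∀ v, 2 ≤ (L.map Prod.fst).count v) {z0 : H →L[ℂ] H} (hz0 : z0 ∈ M)
    {η : ℝ} (hη : 0 < η) :
    ∃ P0 : Part A, ∀ P, P0 ≤ P →
      ‖∑ g : V → Fin P.n, ⟪z0 Ω, eval g (stoks P L) Ω⟫‖ ≤ η := by
  classical
  have hA := h.masa
  have hnot : ¬ (L.map Prod.fst).Nodup := by
    intro hnd
    obtain ⟨x, L', rfl⟩ := List.exists_cons_of_ne_nil hne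
    have := List.nodup_iff_count_le_one.1 hnd x.1
    have := hcount x.1
    omega
  obtain ⟨pre, ⟨v, x⟩, suf, hL, hvs, hnd⟩ := exists_last_repeat hnot
  have hmemL : ∀ y ∈ (v, x) :: suf, y ∈ L := fun y hy => by
    rw [hL]; exact List.mem_append_right _ hy
  have hx : x ∈ M := hgood _ (hmemL _ (List.mem_cons_self ..))
  have hsne : suf ≠ [] := fun e => by simp [e] at hvs
  have hx0 : plim hA x = 0 := h0 (v, x) (by
    rw [hL, List.dropLast_append_of_ne_nil (by simp), List.dropLast_cons_of_ne_nil hsne]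
    simp)
  set K := ‖z0‖ * ssize pre * ‖Ω‖ with hK
  set δ := (η / (|K| + 1)) ^ 2 with hδ
  have hδ0 : 0 < δ := by positivity
  obtain ⟨P0, hP0⟩ : ∃ P0 : Part A, ∀ P, P0 ≤ P → ∀ base : V → Fin P.n,
      msum Ω (stoks P ((v, x) :: suf)) base ≤ δ := by
    obtain ⟨⟨v', z⟩, hz, rfl : v' = v⟩ := List.mem_map.1 hvs
    obtain ⟨mid, post, rfl⟩ := List.append_of_mem hz
    have hsufM : ∀ y ∈ mid ++ (v', z) :: post, y.2 ∈ M := fun y hy =>
      hgood y (hmemL y (List.mem_cons_of_mem _ hy))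
    match mid, hnd, hsufM with
    | [], hnd, hsufM =>
      exact msum_adjacent_small h hx hx0 (hsufM _ (List.mem_cons_self ..))
        (fun y hy => hsufM y (List.mem_cons_of_mem _ hy)) hnd hδ0
    | (b, yb) :: rest, hnd, hsufM =>
      exact msum_separated_small h hsing hx hx0 (hsufM _ (List.mem_cons_self ..))
        (fun y hy => hsufM y (List.mem_cons_of_mem _ hy)) hnd hδ0
  refine ⟨P0, fun P hP => ?_⟩
  by_cases hb : Nonempty (V → Fin P.n)
  swap
  · rw [not_nonempty_iff] at hb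
    rw [Finset.univ_eq_empty, Finset.sum_empty, norm_zero]
    exact hη.le
  obtain ⟨base⟩ := hb
  set S := stoks P ((v, x) :: suf) with hS
  have hpreg := good_stoks (M := M) P (L := pre) (fun y hy => hgood y (by
    rw [hL]; exact List.mem_append_left _ hy))
  set R : List (Tok H V P.n) := rev (stoks P pre) ++ [Tok.elt z0] with hR
  have hRg : ∀ t ∈ R, t.Good M A := by
    intro t ht
    simp only [hR, List.mem_append, List.mem_singleton] at ht
    rcases ht with ht | rfl
    exacts [good_rev hpreg t ht, hz0]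
  have hmemR : ∀ w, w ∈ vars R ↔ w ∈ pre.map Prod.fst := fun w => by
    simp [hR, vars_append, vars_rev, vars, mem_vars_stoks]
  have hmemS : ∀ w, w ∈ vars S ↔ w ∈ ((v, x) :: suf).map Prod.fst := fun w =>
    mem_vars_stoks P _
  have hflat : ∀ w, (L.map Prod.fst).count w
      = (pre.map Prod.fst).count w + (((v, x) :: suf).map Prod.fst).count w := fun w => by
    rw [hL, List.map_append, List.count_append]
  have hcov : ∀ w, w ∈ vars R ∨ w ∈ vars S := by
    intro w
    rw [hmemR, hmemS]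
    by_contra hc
    rw [not_or] at hc
    have := hcount w
    rw [hflat, List.count_eq_zero.2 hc.1, List.count_eq_zero.2 hc.2] at this
    omega
  have hIS : vars S \ vars R ⊆ vars [(Tok.site v P.e : Tok H V P.n)] := by
    intro w hw
    rw [Finset.mem_sdiff, hmemR, hmemS] at hw
    simp only [vars, insert_empty_eq, Finset.mem_singleton]
    by_contra hne'
    have h2 := hcount w
    rw [hflat, List.count_eq_zero.2 hw.2, List.map_cons,
      List.count_cons_of_ne (fun e => hne' e.symm)] at h2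
    have h3 := List.nodup_iff_count_le_one.1 hnd w
    omega
  have horth : ∀ g : V → Fin P.n, ‖∑ k ∈ Env (vars S \ vars R) g, eval k S Ω‖ ^ 2
      = ∑ k ∈ Env (vars S \ vars R) g, ‖eval k S Ω‖ ^ 2 := fun g =>
    sum_orth_left hA (L₀ := [Tok.site v P.e]) (L₁ := Tok.elt x :: stoks P suf)
      (fun t ht => by rw [List.mem_singleton.1 ht]; exact site_good P v)
      (fun t ht y hy => by rw [List.mem_singleton.1 ht] at hy; cases hy) hIS g Ω
  have hcs := norm_sum_inner_le' (Ω := Ω) hRg hcov horth base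
  have heq : ∀ g : V → Fin P.n,
      ⟪z0 Ω, eval g (stoks P L) Ω⟫ = ⟪eval g R Ω, eval g S Ω⟫ := by
    intro g
    simp only [hL, hR, hS, stoks_append, eval_append, eval_rev g hpreg, eval_cons, eval_nil,
      Tok.val, mul_one, mul_apply_eq_comp]
    rw [ContinuousLinearMap.star_eq_adjoint, ContinuousLinearMap.adjoint_inner_left]
  simp only [heq]
  refine hcs.trans ?_
  rw [show size R * ‖Ω‖ = K by
    simp only [hR, hK, size_append, size_rev, size, size_stoks, mul_one]; ring]
  have h1 := Real.sqrt_le_sqrt (hP0 P hP base)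
  rw [hδ, Real.sqrt_sq (by positivity)] at h1
  refine (mul_le_mul (le_abs_self K) h1 (Real.sqrt_nonneg _) (abs_nonneg _)).trans ?_
  rw [mul_div_assoc', div_le_iff₀ (by positivity)]
  nlinarith [abs_nonneg K]

end Vale.Agent.P078.TypeIII.Singular
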