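import Vale.Agent.P078.Mix.Monomial
import Vale.Agent.P078.TypeIII.Singular.Decay

/-!
# Random colourings annihilate alternating words, without a trace
-/

set_option linter.unusedSectionVars false

namespace Vale.Agent.P078.TypeIII.Singular

open ComplexInnerProductSpace
open Filter Topology
open Vale.Agent.P078 Vale.Agent.P078.General Vale.Agent.P078.Finite
open scoped CStarAlgebra

universe u

variable {H : Type u} [NormedAddCommGroup H] [InnerProductSpace ℂ H] [CompleteSpace H]
variable {M : VonNeumannAlgebra H} {A : StarSubalgebra ℂ (H →L[ℂ] H)} {Ω : H}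
variable {V : Type} [Fintype V] [DecidableEq V]

/-- An alternating word: `b y₁ b y₂ ⋯ b yₘ`. -/
noncomputable def wordS (b : H →L[ℂ] H) (ys : List (H →L[ℂ] H)) : H →L[ℂ] H :=
  (ys.map (fun y => b * y)).prod

lemma wordS_nil (b : H →L[ℂ] H) : wordS b ([] : List (H →L[ℂ] H)) = 1 := rfl

lemma wordS_cons (b y : H →L[ℂ] H) (ys : List (H →L[ℂ] H)) :
    wordS b (y :: ys) = b * y * wordS b ys := by
  simp [wordS]

lemma wordS_append (b : H →L[ℂ] H) (ys zs : List (H →L[ℂ] H)) :
    wordS b (ys ++ zs) = wordS b ys * wordS b zs := by simp [wordS]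

lemma occ_stoks (P : Part A) : ∀ L : List (V × (H →L[ℂ] H)), occ (stoks P L) = L.map Prod.fst
  | [] => rfl
  | x :: L => by simp [stoks, occ, occ_stoks P L]

lemma mix_stoks (P : Part A) (ξ : Fin P.n → ℂ) : ∀ L : List (V × (H →L[ℂ] H)),
    ((stoks P L).map (Tok.mix ξ)).prod = wordS (∑ i, ξ i • P.e i) (L.map Prod.snd)
  | [] => rfl
  | x :: L => by simp [stoks, wordS_cons, mix_stoks P ξ L, Tok.mix, mul_assoc]

/-- Rename the variables. -/
def srename {W : Type} (π : V → W) (L : List (V × (H →L[ℂ] H))) : List (W × (H →L[ℂ] H)) :=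
  L.map (fun x => (π x.1, x.2))

lemma eval_srename {W : Type} [DecidableEq W] (P : Part A) (π : V → W) (g : W → Fin P.n) :
    ∀ L : List (V × (H →L[ℂ] H)), eval g (stoks P (srename π L)) = eval (g ∘ π) (stoks P L)
  | [] => rfl
  | x :: L => by
    have ih := eval_srename P π g L
    simp only [srename] at ih
    simp [srename, stoks, eval_cons, ih, Tok.val]

variable (h : CentSetting M A Ω)
include h

/-- The sum over valuations with a given kernel tends to zero. -/
lemma tendsto_exact (hsing : Sing M A) {L : List (V × (H →L[ℂ] H))} (hne : L ≠ [])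
    (hgood : ∀ x ∈ L, x.2 ∈ M) (h0 : ∀ x ∈ L.dropLast, plim h.masa x.2 = 0)
    (hall : ∀ v, v ∈ L.map Prod.fst) {z0 : H →L[ℂ] H} (hz0 : z0 ∈ M) :
    ∀ (K : Finset (V × V)), (∀ i, ∃ j, j ≠ i ∧ (i, j) ∈ K) →
      Tendsto (fun P : Part A =>
          ‖kerSum K (fun g : V → Fin P.n => ⟪z0 Ω, eval g (stoks P L) Ω⟫)‖)
        (uf h.masa) (𝓝 0) := by
  classical
  intro K
  induction hm : (Finset.univ \ K).card using Nat.strong_induction_on generalizing K with
  | _ m ih =>
  intro hK
  have hA := h.masa
  by_cases hreal : ∃ g : V → V, kerSet g = K ∧ ∀ i, g (g i) = g i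
  swap
  · have hz : ∀ P : Part A,
        kerSum K (fun g : V → Fin P.n => ⟪z0 Ω, eval g (stoks P L) Ω⟫) = 0 := by
      intro P
      refine Finset.sum_eq_zero (fun val hval => absurd ?_ hreal)
      rcases isEmpty_or_nonempty V with hV | hV
      · exact ⟨id, by ext p; exact isEmptyElim p.1, fun i => isEmptyElim i⟩
      have hinv : ∀ i, val (Function.invFun val (val i)) = val i :=
        fun i => Function.invFun_eq ⟨i, rfl⟩
      refine ⟨fun i => Function.invFun val (val i), ?_, fun i => by simp only [hinv i]⟩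
      rw [← (Finset.mem_filter.1 hval).2]
      ext p
      simp only [mem_kerSet]
      exact ⟨fun e => by rw [← hinv p.1, e, hinv p.2], fun e => by rw [e]⟩
    simp only [hz, norm_zero]
    exact tendsto_const_nhds
  obtain ⟨g, hgK, hgg⟩ := hreal
  have hKg : ∀ i j, (i, j) ∈ K ↔ g i = g j := fun i j => by rw [← hgK]; exact mem_kerSet
  let π : V → {i : V // g i = i} := fun i => ⟨g i, hgg i⟩
  have hpi : ∀ i j, π i = π j ↔ g i = g j := fun i j => by simp [π]
  have hcount : ∀ w : {i : V // g i = i}, 2 ≤ ((srename π L).map Prod.fst).count w := by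
    intro w
    obtain ⟨j, hj, hjK⟩ := hK w.1
    rw [hKg] at hjK
    have e1 : π w.1 = w := Subtype.ext w.2
    have e2 : π j = w := Subtype.ext (hjK.symm.trans w.2)
    have hsub : [w.1, j].Subperm (L.map Prod.fst) :=
      List.subperm_of_subset (by simp [hj.symm]) (fun u _ => hall u)
    rw [show (srename π L).map Prod.fst = (L.map Prod.fst).map π by
      simp [srename, List.map_map, Function.comp_def]]
    obtain ⟨l, hl, hls⟩ := hsub
    refine le_trans ?_ ((hls.map π).count_le w)
    rw [(hl.map π).count_eq w]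
    simp [e1, e2]
  have hfull : Tendsto (fun P : Part A =>
      ‖∑ val ∈ Finset.univ.filter (fun val : V → Fin P.n => K ⊆ kerSet val),
        ⟪z0 Ω, eval val (stoks P L) Ω⟫‖) (uf hA) (𝓝 0) := by
    rw [Metric.tendsto_nhds]
    intro η hη
    obtain ⟨P0, hP0⟩ := exists_word_small h hsing (L := srename π L)
      (by simpa [srename] using hne)
      (fun x hx => by
        obtain ⟨y, hy, rfl⟩ := List.mem_map.1 hx
        exact hgood y hy)
      (fun x hx => by
        rw [srename, ← List.map_dropLast] at hx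
        obtain ⟨y, hy, rfl⟩ := List.mem_map.1 hx
        exact h0 y hy)
      (fun w => by convert hcount w) hz0 (half_pos hη)
    filter_upwards [eventually_finer hA P0] with P hP
    rw [Real.dist_eq, sub_zero, abs_norm]
    refine lt_of_le_of_lt (le_trans (le_of_eq ?_) (hP0 P hP)) (by linarith)
    congr 1
    refine Finset.sum_bij' (fun val _ => fun w => val w.1) (fun k _ => k ∘ π) ?_ ?_ ?_ ?_ ?_
    · simp
    · intro k _
      simp only [Finset.mem_filter, Finset.mem_univ, true_and]
      intro p hp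
      rw [mem_kerSet, Function.comp_apply, Function.comp_apply,
        (hpi _ _).2 ((hKg p.1 p.2).1 hp)]
    · intro val hval
      funext i
      exact mem_kerSet.1 ((Finset.mem_filter.1 hval).2 ((hKg (g i) i).2 (hgg i)))
    · intro k _
      funext w
      exact congrArg k (Subtype.ext w.2)
    · intro val hval
      rw [eval_srename]
      congr 3
      funext i
      exact (mem_kerSet.1 ((Finset.mem_filter.1 hval).2 ((hKg (g i) i).2 (hgg i)))).symm
  have hrest : Tendsto (fun P : Part A => ∑ K' ∈ Finset.univ.filter (fun K' => K ⊂ K'),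
      ‖kerSum K' (fun g : V → Fin P.n => ⟪z0 Ω, eval g (stoks P L) Ω⟫)‖) (uf hA) (𝓝 0) := by
    have := tendsto_finsetSum (f := fun K' (P : Part A) =>
        ‖kerSum K' (fun g : V → Fin P.n => ⟪z0 Ω, eval g (stoks P L) Ω⟫)‖) (a := fun _ => (0 : ℝ))
      (Finset.univ.filter (fun K' => K ⊂ K')) (fun K' hK' => by
        have hss := (Finset.mem_filter.1 hK').2
        refine ih _ ?_ K' rfl (fun i => ?_)
        · rw [← hm, Finset.card_univ_sdiff, Finset.card_univ_sdiff]
          have := Finset.card_lt_card hss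
          have := Finset.card_le_univ K'
          omega
        · obtain ⟨j, hj, hjK⟩ := hK i
          exact ⟨j, hj, hss.1 hjK⟩)
    simpa using this
  refine squeeze_zero (fun _ => norm_nonneg _) (fun P => ?_)
    (by simpa using hfull.add hrest)
  set φ := fun val : V → Fin P.n => ⟪z0 Ω, eval val (stoks P L) Ω⟫
  have e : ∑ val ∈ Finset.univ.filter (fun val : V → Fin P.n => K ⊆ kerSet val), φ val
      = kerSum K φ + ∑ K' ∈ Finset.univ.filter (fun K' => K ⊂ K'), kerSum K' φ := by
    rw [← Finset.sum_filter_add_sum_filter_not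
      (Finset.univ.filter (fun val : V → Fin P.n => K ⊆ kerSet val)) (fun val => kerSet val = K)]
    congr 1
    · rw [kerSum, Finset.filter_filter]
      refine Finset.sum_congr (Finset.filter_congr (fun val _ => ?_)) (fun _ _ => rfl)
      exact ⟨fun e => e.2, fun e => ⟨e ▸ subset_rfl, e⟩⟩
    · rw [← Finset.sum_fiberwise_of_maps_to (t := Finset.univ.filter (fun K' => K ⊂ K'))
        (g := fun val : V → Fin P.n => kerSet val)]
      · refine Finset.sum_congr rfl (fun K' hK' => ?_)
        have hss := (Finset.mem_filter.1 hK').2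
        rw [kerSum]
        refine Finset.sum_congr ?_ (fun _ _ => rfl)
        ext val
        simp only [Finset.mem_filter, Finset.mem_univ, true_and]
        exact ⟨fun e => e.2, fun e => ⟨⟨e ▸ hss.1, fun e' => hss.ne (e'.symm.trans e)⟩, e⟩⟩
      · intro val hval
        simp only [Finset.mem_filter, Finset.mem_univ, true_and] at hval ⊢
        exact Finset.ssubset_iff_subset_ne.2 ⟨hval.1, fun e => hval.2 e.symm⟩
  have e' : kerSum K φ = (∑ val ∈ Finset.univ.filter (fun val : V → Fin P.n => K ⊆ kerSet val),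
      φ val) - ∑ K' ∈ Finset.univ.filter (fun K' => K ⊂ K'), kerSum K' φ := by rw [e]; abel
  rw [e']
  exact (norm_sub_le _ _).trans (add_le_add le_rfl (norm_sum_le _ _))

/-- The averaged correlation of a word without repeated variables vanishes. -/
lemma tendsto_stoks (hsing : Sing M A) {L : List (V × (H →L[ℂ] H))} (hne : L ≠ [])
    (hgood : ∀ x ∈ L, x.2 ∈ M) (h0 : ∀ x ∈ L.dropLast, plim h.masa x.2 = 0)
    (hall : ∀ v, v ∈ L.map Prod.fst) (hnd : (L.map Prod.fst).Nodup)
    {z0 : H →L[ℂ] H} (hz0 : z0 ∈ M) {r : ℕ} (c : Fin r) :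
    Tendsto (fun P : Part A => ((Fintype.card (Fin P.n → Fin r) : ℂ))⁻¹ *
      ∑ f : Fin P.n → Fin r, ⟪z0 Ω, wordS (bOp P f c) (L.map Prod.snd) Ω⟫)
      (uf h.masa) (𝓝 0) := by
  classical
  have hexact := tendsto_exact h hsing hne hgood h0 hall hz0
  refine squeeze_zero_norm (fun P => ?_)
    (show Tendsto (fun P : Part A => ∑ K ∈ Finset.univ.filter
        (fun K : Finset (V × V) => ∀ i, ∃ j, j ≠ i ∧ (i, j) ∈ K),
          ‖kerSum K (fun g : V → Fin P.n => ⟪z0 Ω, eval g (stoks P L) Ω⟫)‖)
        (uf h.masa) (𝓝 0) by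
      simpa using (tendsto_finsetSum (a := fun _ => (0 : ℝ))
        (Finset.univ.filter (fun K : Finset (V × V) => ∀ i, ∃ j, j ≠ i ∧ (i, j) ∈ K))
        (fun K hK => hexact K (Finset.mem_filter.1 hK).2)))
  refine le_trans (le_of_eq ?_) (sum_moment_mul_le c _)
  congr 1
  rcases Nat.eq_zero_or_pos P.n with hn | hn
  · have : IsEmpty (Fin P.n) := by rw [hn]; infer_instance
    have h10 : (0 : H →L[ℂ] H) = 1 := by
      have := P.total
      rwa [Finset.univ_eq_empty, Finset.sum_empty] at this
    have hX : ∀ X : H →L[ℂ] H, X = 0 := fun X => by rw [← mul_one X, ← h10, mul_zero]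
    simp [hX (wordS _ _), hX (eval _ (stoks P L))]
  · have base : V → Fin P.n := fun _ => ⟨0, hn⟩
    have huniv : vars (stoks P L) = Finset.univ := by
      ext v
      simp only [mem_vars_stoks, Finset.mem_univ, iff_true]
      exact hall v
    have hw : ∀ f : Fin P.n → Fin r, wordS (bOp P f c) (L.map Prod.snd)
        = ∑ g : V → Fin P.n, (∏ v, (xi c (f (g v)) : ℂ)) • eval g (stoks P L) := fun f => by
      have hp := prod_mix (fun i => (xi c (f i) : ℂ)) (L := stoks P L)
        (by rw [occ_stoks]; exact hnd) base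
      rw [huniv, Env_univ, mix_stoks] at hp
      exact hp
    simp only [hw, _root_.sum_apply, smul_apply, inner_sum, inner_smul_right]
    rw [Finset.sum_comm, Finset.mul_sum]
    refine Finset.sum_congr rfl (fun g _ => ?_)
    rw [← Finset.sum_mul, ← mul_assoc, moment]
    push_cast
    rfl

/-- **Orthogonality.** The averaged correlation of an alternating word with `MΩ` vanishes. -/
theorem tendsto_wordS (hsing : Sing M A) {ys : List (H →L[ℂ] H)} (hne : ys ≠ [])
    (hgood : ∀ y ∈ ys, y ∈ M) (h0 : ∀ y ∈ ys.dropLast, plim h.masa y = 0)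
    {z0 : H →L[ℂ] H} (hz0 : z0 ∈ M) {r : ℕ} (c : Fin r) :
    Tendsto (fun P : Part A => ((Fintype.card (Fin P.n → Fin r) : ℂ))⁻¹ *
      ∑ f : Fin P.n → Fin r, ⟪z0 Ω, wordS (bOp P f c) ys Ω⟫) (uf h.masa) (𝓝 0) := by
  classical
  obtain ⟨L, hL⟩ : ∃ L : List (Fin ys.length × (H →L[ℂ] H)),
      L = List.ofFn (fun i => (i, ys.get i)) := ⟨_, rfl⟩
  have hfst : L.map Prod.fst = List.ofFn (fun i : Fin ys.length => i) := by
    simp [hL, List.map_ofFn, Function.comp_def]
  have hsnd : L.map Prod.snd = ys := by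
    simp [hL, List.map_ofFn, Function.comp_def]
  have key := tendsto_stoks h hsing (L := L) (z0 := z0)
    (fun e => hne (hsnd.symm.trans (by rw [e, List.map_nil])))
    (fun x hx => by
      have h1 := List.mem_map_of_mem (f := Prod.snd) hx
      rw [hsnd] at h1
      exact hgood _ h1)
    (fun x hx => by
      have h1 := List.mem_map_of_mem (f := Prod.snd) hx
      rw [List.map_dropLast, hsnd] at h1
      exact h0 _ h1)
    (fun v => by rw [hfst, List.mem_ofFn]; exact ⟨v, rfl⟩)
    (by rw [hfst, List.nodup_ofFn]; exact fun i j e => e) hz0 c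
  rw [hsnd] at key
  exact key

end Vale.Agent.P078.TypeIII.Singular
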