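import Vale.Agent.P078.Mix.Inclusions
import Vale.Agent.P078.TypeIII.Singular.Moments

/-!
# The three subspaces of random word vectors over a singular MASA
-/

set_option linter.unusedSectionVars false

namespace Vale.Agent.P078.TypeIII.Singular

open ComplexInnerProductSpace
open Filter Topology
open Vale.Agent.P078 Vale.Agent.P078.General Vale.Agent.P078.Finite
open scoped CStarAlgebra

universe u

variable {H : Type u} [NormedAddCommGroup H] [InnerProductSpace ℂ H] [CompleteSpace H]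
variable {M : VonNeumannAlgebra H} {A : StarSubalgebra ℂ (H →L[ℂ] H)} {Ω : H}

/-- A word with interior elements killed by `plim`. -/
def WG (hA : IsMASAIn M A) (ys : List (H →L[ℂ] H)) : Prop :=
  ys ≠ [] ∧ (∀ y ∈ ys, y ∈ M) ∧ ∀ y ∈ ys.dropLast, plim hA y = 0

section

variable {hA : IsMASAIn M A} {r : ℕ} {c : Fin r}

/-- A word after a fixed element. -/
noncomputable def svec (hA : IsMASAIn M A) (Ω : H) {r : ℕ} (c : Fin r) (z : H →L[ℂ] H)
    (ys : List (H →L[ℂ] H)) : Fam hA r :=
  Fam.vec hA r Ω (fun P f => z * wordS (bOp P f c) ys)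

lemma exists_wordS_bound (c : Fin r) : ∀ ys : List (H →L[ℂ] H),
    ∃ C : ℝ, 0 ≤ C ∧ ∀ (P : Part A) (f : Fin P.n → Fin r), ‖wordS (bOp P f c) ys‖ ≤ C
  | [] => ⟨1, zero_le_one, fun P f => (IsStarProjection.one (H →L[ℂ] H)).norm_le⟩
  | y :: ys => by
    obtain ⟨C, hC0, hC⟩ := exists_wordS_bound c ys
    refine ⟨‖y‖ * C, by positivity, fun P f => ?_⟩
    rw [wordS_cons]
    refine (norm_mul_le _ _).trans (mul_le_mul ?_ (hC P f) (norm_nonneg _) (norm_nonneg _))
    exact (norm_mul_le _ _).trans (mul_le_of_le_one_left (norm_nonneg _) (norm_bOp_le P f c))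

lemma svec_at (z : H →L[ℂ] H) (ys : List (H →L[ℂ] H)) (P : Part A) (f : Fin P.n → Fin r) :
    (svec hA Ω c z ys).at' P f = (z * wordS (bOp P f c) ys) Ω := by
  obtain ⟨C, hC0, hC⟩ := exists_wordS_bound c ys
  exact Fam.vec_at ⟨‖z‖ * C, fun P f => (norm_mul_le _ _).trans
    (mul_le_mul_of_nonneg_left (hC P f) (norm_nonneg _))⟩ P f

lemma svec_add (z z' : H →L[ℂ] H) (ys : List (H →L[ℂ] H)) :
    svec hA Ω c (z + z') ys = svec hA Ω c z ys + svec hA Ω c z' ys :=
  Fam.ext' (fun P f => by simp [svec_at])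

lemma star_mul_wordS {b : H →L[ℂ] H} (hb : IsSelfAdjoint b) (n : H →L[ℂ] H) :
    ∀ (ns : List (H →L[ℂ] H)) (y : H →L[ℂ] H),
      star (y * wordS b (ns ++ [n])) = star n * wordS b ((ns.map star).reverse ++ [star y])
  | [], y => by simp [wordS_cons, wordS_nil, hb.star_eq, mul_assoc]
  | m :: ns, y => by
    have ih := star_mul_wordS hb n ns m
    simp only [List.cons_append, List.map_cons, List.reverse_cons]
    rw [wordS_cons, mul_assoc b, star_mul, star_mul, ih, hb.star_eq]
    simp only [wordS_append, wordS_cons, wordS_nil, mul_one, mul_assoc]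

end

section

variable (hA : IsMASAIn M A) (Ω : H) {r : ℕ} (c : Fin r)

/-- Constants from `A`. -/
noncomputable def T0 (r : ℕ) : Submodule ℂ (Fam hA r) :=
  Submodule.span ℂ {Φ | ∃ a ∈ A, Φ = cvec hA Ω r a}

/-- Word vectors. -/
noncomputable def T1 : Submodule ℂ (Fam hA r) :=
  Submodule.span ℂ {Φ | ∃ ys, WG hA ys ∧ Φ = svec hA Ω c 1 ys}

/-- Elements killed by `plim`, possibly followed by a word. -/
noncomputable def T2 : Submodule ℂ (Fam hA r) :=
  Submodule.span ℂ {Φ | ∃ y ∈ M, plim hA y = 0 ∧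
    (Φ = cvec hA Ω r y ∨ ∃ ys, WG hA ys ∧ Φ = svec hA Ω c y ys)}

variable {hA Ω c}

lemma plim_sub_plim {z : H →L[ℂ] H} (hz : z ∈ M) : plim hA (z - plim hA z) = 0 := by
  have := map_sub (plimₗ hA) z (plim hA z)
  change plim hA (z - plim hA z) = plim hA z - plim hA (plim hA z) at this
  rw [this, plim_of_mem hA (plim_mem hA hz), sub_self]

lemma cvec_mem_T02 {z : H →L[ℂ] H} (hz : z ∈ M) :
    cvec hA Ω r z ∈ T0 hA Ω r ⊔ T2 hA Ω c := by
  have ha := plim_mem hA hz
  rw [show z = plim hA z + (z - plim hA z) by abel, cvec_add]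
  exact Submodule.add_mem_sup (Submodule.subset_span ⟨_, ha, rfl⟩)
    (Submodule.subset_span ⟨_, sub_mem hz (hA.mem_M ha), plim_sub_plim hz, Or.inl rfl⟩)

lemma wg_cons {y : H →L[ℂ] H} (hy : y ∈ M) (hy0 : plim hA y = 0) {ys : List (H →L[ℂ] H)}
    (hys : WG hA ys) : WG hA (y :: ys) := by
  refine ⟨by simp, fun z hz => ?_, fun z hz => ?_⟩
  · rcases List.mem_cons.1 hz with rfl | hz
    exacts [hy, hys.2.1 z hz]
  · rw [List.dropLast_cons_of_ne_nil hys.1] at hz
    rcases List.mem_cons.1 hz with rfl | hz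
    exacts [hy0, hys.2.2 z hz]

lemma Bop_cvec_mem {z : H →L[ℂ] H} (hz : z ∈ M) :
    Bop hA c (cvec hA Ω r z) ∈ T1 hA Ω c := by
  refine Submodule.subset_span ⟨[z], ⟨by simp, by simpa using hz, by simp⟩,
    Fam.ext' (fun P f => ?_)⟩
  rw [Bop_at, cvec_at, svec_at]
  simp [wordS]

lemma Bop_svec_mem {y : H →L[ℂ] H} (hy : y ∈ M) (hy0 : plim hA y = 0)
    {ys : List (H →L[ℂ] H)} (hys : WG hA ys) :
    Bop hA c (svec hA Ω c y ys) ∈ T1 hA Ω c := by
  refine Submodule.subset_span ⟨y :: ys, wg_cons hy hy0 hys, Fam.ext' (fun P f => ?_)⟩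
  rw [Bop_at, svec_at, svec_at, one_mul, wordS_cons]
  simp [mul_assoc]

lemma Bop_word_mem' {ys : List (H →L[ℂ] H)} (hys : WG hA ys) :
    Bop hA c (svec hA Ω c 1 ys) ∈
      (T1 hA Ω c).topologicalClosure ⊔ (T0 hA Ω r ⊔ T2 hA Ω c).topologicalClosure := by
  obtain ⟨y, rest, rfl⟩ := List.exists_cons_of_ne_nil hys.1
  have hy : y ∈ M := hys.2.1 y (List.mem_cons_self ..)
  have hZ : Fam.vec hA r Ω (fun P f => y * wordS (bOp P f c) rest)
      ∈ T0 hA Ω r ⊔ T2 hA Ω c := by
    by_cases hr : rest = []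
    · subst hr
      simp only [wordS_nil, mul_one]
      exact cvec_mem_T02 hy
    · have hy0 : plim hA y = 0 := hys.2.2 y (by
        rw [List.dropLast_cons_of_ne_nil hr]; exact List.mem_cons_self ..)
      have hrest : WG hA rest := ⟨hr, fun z hz => hys.2.1 z (List.mem_cons_of_mem _ hz),
        fun z hz => hys.2.2 z (by
          rw [List.dropLast_cons_of_ne_nil hr]; exact List.mem_cons_of_mem _ hz)⟩
      exact Submodule.mem_sup_right
        (Submodule.subset_span ⟨y, hy, hy0, Or.inr ⟨rest, hrest, rfl⟩⟩)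
  have e : Bop hA c (svec hA Ω c 1 (y :: rest))
      = ((1 - 2 / r : ℝ) : ℂ) • svec hA Ω c 1 (y :: rest)
        + (((1 / r) * (1 - 1 / r) : ℝ) : ℂ) • svec hA Ω c y rest := by
    refine Fam.ext' (fun P f => ?_)
    rw [Bop_at, Fam.at'_add, Fam.at'_smul, Fam.at'_smul, svec_at, svec_at, one_mul, wordS_cons,
      ← smul_apply, ← smul_apply, ← add_apply, ← mul_apply_eq_comp]
    refine congrArg (fun T : H →L[ℂ] H => T Ω) ?_
    rw [← mul_assoc, ← mul_assoc, bOp_mul_self, add_mul, add_mul, smul_mul_assoc, smul_mul_assoc,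
      smul_mul_assoc, smul_mul_assoc, one_mul]
  rw [e]
  exact add_mem (Submodule.smul_mem _ _ (Submodule.mem_sup_left
      (Submodule.le_topologicalClosure _ (Submodule.subset_span ⟨_, hys, rfl⟩))))
    (Submodule.smul_mem _ _ (Submodule.mem_sup_right (Submodule.le_topologicalClosure _ hZ)))

lemma mul_word_mem {a : H →L[ℂ] H} (ha : a ∈ A) {ys : List (H →L[ℂ] H)} (hys : WG hA ys) :
    svec hA Ω c a ys ∈ T1 hA Ω c := by
  obtain ⟨y, rest, rfl⟩ := List.exists_cons_of_ne_nil hys.1
  have haM := hA.mem_M ha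
  have hW : WG hA ((a * y) :: rest) := by
    refine ⟨by simp, fun z hz => ?_, fun z hz => ?_⟩
    · rcases List.mem_cons.1 hz with rfl | hz
      exacts [mul_mem haM (hys.2.1 y (List.mem_cons_self ..)),
        hys.2.1 z (List.mem_cons_of_mem _ hz)]
    · by_cases hr : rest = []
      · subst hr; simp at hz
      · have hmem : ∀ w ∈ y :: rest.dropLast, plim hA w = 0 := fun w hw => hys.2.2 w (by
          rwa [List.dropLast_cons_of_ne_nil hr])
        rw [List.dropLast_cons_of_ne_nil hr] at hz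
        rcases List.mem_cons.1 hz with rfl | hz
        · rw [plim_mul_left hA ha, hmem y (List.mem_cons_self ..), mul_zero]
        · exact hmem z (List.mem_cons_of_mem _ hz)
  refine Submodule.subset_span ⟨_, hW, Fam.ext' (fun P f => ?_)⟩
  rw [svec_at, svec_at, one_mul, wordS_cons, wordS_cons]
  refine congrArg (fun T : H →L[ℂ] H => T Ω) ?_
  rw [← mul_assoc, ← mul_assoc a, hA.comm ha (bOp_mem P f c)]
  simp only [mul_assoc]

end

variable (h : CentSetting M A Ω)
include h

lemma inner_cvec_svec (hsing : Sing M A) {r : ℕ} {c : Fin r} {z : H →L[ℂ] H} (hz : z ∈ M)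
    {ys : List (H →L[ℂ] H)} (hys : WG h.masa ys) :
    ⟪cvec h.masa Ω r z, svec h.masa Ω c 1 ys⟫ = 0 := by
  refine tendsto_nhds_unique (Fam.tendsto_inner _ _) ?_
  refine (tendsto_wordS h hsing hys.1 hys.2.1 hys.2.2 hz c).congr (fun P => ?_)
  simp only [Fam.avg, cvec_at, svec_at, one_mul]

lemma inner_svec_svec (hsing : Sing M A) {r : ℕ} {c : Fin r} {y : H →L[ℂ] H} (hy : y ∈ M)
    (hy0 : plim h.masa y = 0) {ns ys : List (H →L[ℂ] H)} (hns : WG h.masa ns)
    (hys : WG h.masa ys) : ⟪svec h.masa Ω c y ns, svec h.masa Ω c 1 ys⟫ = 0 := by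
  have hA := h.masa
  obtain ⟨hne, hnM, hn0⟩ := hns
  rcases List.eq_nil_or_concat ns with h0 | ⟨pre, n, rfl⟩
  · exact absurd h0 hne
  rw [List.concat_eq_append] at hnM hn0 ⊢
  rw [List.dropLast_concat] at hn0
  set R := (pre.map star).reverse ++ [star y] with hR
  have hRne : R ++ ys ≠ [] := by simp [hR]
  have hRM : ∀ z ∈ R ++ ys, z ∈ M := by
    intro z hz
    simp only [hR, List.mem_append, List.mem_reverse, List.mem_map, List.mem_singleton] at hz
    rcases hz with (⟨w, hw, rfl⟩ | rfl) | hz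
    exacts [star_mem (hnM w (List.mem_append_left _ hw)), star_mem hy, hys.2.1 z hz]
  have hR0 : ∀ z ∈ (R ++ ys).dropLast, plim hA z = 0 := by
    intro z hz
    rw [List.dropLast_append_of_ne_nil hys.1] at hz
    simp only [hR, List.mem_append, List.mem_reverse, List.mem_map, List.mem_singleton] at hz
    rcases hz with (⟨w, hw, rfl⟩ | rfl) | hz
    · rw [plim_star' hA, hn0 w hw, star_zero]
    · rw [plim_star' hA, hy0, star_zero]
    · exact hys.2.2 z hz
  refine tendsto_nhds_unique (Fam.tendsto_inner _ _) ?_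
  refine (tendsto_wordS h hsing hRne hRM hR0 (hnM n (by simp)) c).congr (fun P => ?_)
  simp only [Fam.avg, svec_at, one_mul]
  congr 1
  refine Finset.sum_congr rfl (fun f _ => ?_)
  rw [inner_apply, inner_apply, star_mul_wordS (bOp_sa P f c), mul_assoc (star n), ← wordS_append]

/-- `q w q` contracts by `O(1/√r)` on the closed span. -/
theorem qwq_bound (hsing : Sing M A) {r : ℕ} (c : Fin r) {w : H →L[ℂ] H} (hw : w ∈ M)
    (hw1 : ‖w‖ ≤ 1) (hw0 : plim h.masa w = 0) :
    ∀ v ∈ (T1 h.masa Ω c ⊔ (T0 h.masa Ω r ⊔ T2 h.masa Ω c)).topologicalClosure,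
      ((1 / r : ℝ) • Wop h.masa r hw1 ((1 / r : ℝ) • v + Bop h.masa c v)
        + Bop h.masa c (Wop h.masa r hw1 ((1 / r : ℝ) • v + Bop h.masa c v)))
          ∈ (T1 h.masa Ω c ⊔ (T0 h.masa Ω r ⊔ T2 h.masa Ω c)).topologicalClosure ∧
      ‖(1 / r : ℝ) • Wop h.masa r hw1 ((1 / r : ℝ) • v + Bop h.masa c v)
        + Bop h.masa c (Wop h.masa r hw1 ((1 / r : ℝ) • v + Bop h.masa c v))‖
        ≤ ((1 / r : ℝ) ^ 2 + 2 * (1 / r) + 2 * Real.sqrt ((1 / r) * (1 - 1 / r))) * ‖v‖ := by
  have hA := h.masa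
  have hr1 : (1 : ℝ) ≤ r := by exact_mod_cast c.pos
  have hvar : (0 : ℝ) ≤ (1 / r) * (1 - 1 / r) := by
    have : (1 : ℝ) / r ≤ 1 := (div_le_one (by linarith)).2 hr1
    exact mul_nonneg (by positivity) (by linarith)
  refine norm_sandwich_le (α := 1 - 2 / r) Bop_symm (Fam.norm_mulOp_le _) (Fam.norm_mulOp_le _)
    (Real.sqrt_nonneg _) (by positivity) (fun x z => by rw [Real.sq_sqrt hvar]; exact Bop_sq x z)
    (D0 := T0 h.masa Ω r) (D1 := T1 h.masa Ω c) (D2 := T2 h.masa Ω c)
    ?_ ?_ ?_ ?_ ?_ ?_ ?_ ?_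
  · intro x hx z hz
    induction hx using Submodule.span_induction with
    | mem v hv =>
      obtain ⟨a, ha, rfl⟩ := hv
      induction hz using Submodule.span_induction with
      | mem u hu =>
        obtain ⟨ys, hys, rfl⟩ := hu
        exact inner_cvec_svec h hsing (hA.mem_M ha) hys
      | zero => exact inner_zero_right _
      | add a b _ _ ha hb => rw [inner_add_right, ha, hb, add_zero]
      | smul k a _ ha => rw [inner_smul_right, ha, mul_zero]
    | zero => exact inner_zero_left _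
    | add a b _ _ ha hb => rw [inner_add_left, ha, hb, add_zero]
    | smul k a _ ha => rw [inner_smul_left, ha, mul_zero]
  · intro x hx z hz
    induction hx using Submodule.span_induction with
    | mem v hv =>
      obtain ⟨y, hy, hy0, hv⟩ := hv
      induction hz using Submodule.span_induction with
      | mem u hu =>
        obtain ⟨ys, hys, rfl⟩ := hu
        rcases hv with rfl | ⟨ns, hns, rfl⟩
        exacts [inner_cvec_svec h hsing hy hys, inner_svec_svec h hsing hy hy0 hns hys]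
      | zero => exact inner_zero_right _
      | add a b _ _ ha hb => rw [inner_add_right, ha, hb, add_zero]
      | smul k a _ ha => rw [inner_smul_right, ha, mul_zero]
    | zero => exact inner_zero_left _
    | add a b _ _ ha hb => rw [inner_add_left, ha, hb, add_zero]
    | smul k a _ ha => rw [inner_smul_left, ha, mul_zero]
  · intro x hx
    exact Submodule.le_topologicalClosure _
      ((Submodule.span_le (p := (T1 hA Ω c).comap (Bop hA c).toLinearMap)).2
        (by rintro _ ⟨a, ha, rfl⟩; exact Bop_cvec_mem (hA.mem_M ha)) hx)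
  · intro x hx
    exact Submodule.le_topologicalClosure _
      ((Submodule.span_le (p := (T1 hA Ω c).comap (Bop hA c).toLinearMap)).2 (by
        rintro _ ⟨y, hy, hy0, rfl | ⟨ys, hys, rfl⟩⟩
        exacts [Bop_cvec_mem hy, Bop_svec_mem hy hy0 hys]) hx)
  · intro x hx
    exact (Submodule.span_le (p := ((T1 hA Ω c).topologicalClosure ⊔
      (T0 hA Ω r ⊔ T2 hA Ω c).topologicalClosure).comap (Bop hA c).toLinearMap)).2
        (by rintro _ ⟨ys, hys, rfl⟩; exact Bop_word_mem' hys) hx
  · intro x hx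
    exact Submodule.le_topologicalClosure _
      ((Submodule.span_le (p := (T2 hA Ω c).comap (Wop hA r hw1).toLinearMap)).2 (by
        rintro _ ⟨a, ha, rfl⟩
        have e : Wop hA r hw1 (cvec hA Ω r a) = cvec hA Ω r (w * a) :=
          Fam.ext' (fun P f => by rw [Wop_at, cvec_at, cvec_at]; rfl)
        change Wop hA r hw1 (cvec hA Ω r a) ∈ T2 hA Ω c
        rw [e]
        exact Submodule.subset_span ⟨w * a, mul_mem hw (hA.mem_M ha),
          by rw [plim_mul_right hA ha, hw0, zero_mul], Or.inl rfl⟩) hx)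
  · intro x hx
    exact Submodule.le_topologicalClosure _
      ((Submodule.span_le (p := (T2 hA Ω c).comap (Wop hA r hw1).toLinearMap)).2 (by
        rintro _ ⟨ys, hys, rfl⟩
        have e : Wop hA r hw1 (svec hA Ω c 1 ys) = svec hA Ω c w ys :=
          Fam.ext' (fun P f => by rw [Wop_at, svec_at, svec_at, one_mul]; rfl)
        change Wop hA r hw1 (svec hA Ω c 1 ys) ∈ T2 hA Ω c
        rw [e]
        exact Submodule.subset_span ⟨w, hw, hw0, Or.inr ⟨ys, hys, rfl⟩⟩) hx)
  · intro x hx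
    exact (Submodule.span_le (p := ((T1 hA Ω c ⊔ (T0 hA Ω r ⊔ T2 hA Ω c)).topologicalClosure).comap
      (Wop hA r hw1).toLinearMap)).2 (by
        rintro _ ⟨y, hy, hy0, rfl | ⟨ys, hys, rfl⟩⟩
        · have e : Wop hA r hw1 (cvec hA Ω r y) = cvec hA Ω r (w * y) :=
            Fam.ext' (fun P f => by rw [Wop_at, cvec_at, cvec_at]; rfl)
          change Wop hA r hw1 (cvec hA Ω r y) ∈
            (T1 hA Ω c ⊔ (T0 hA Ω r ⊔ T2 hA Ω c)).topologicalClosure
          rw [e]
          exact Submodule.le_topologicalClosure _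
            (Submodule.mem_sup_right (cvec_mem_T02 (mul_mem hw hy)))
        · have e : Wop hA r hw1 (svec hA Ω c y ys) = svec hA Ω c (w * y) ys :=
            Fam.ext' (fun P f => by rw [Wop_at, svec_at, svec_at, mul_assoc w y]; rfl)
          have hwy : w * y ∈ M := mul_mem hw hy
          have ha := plim_mem hA hwy
          change Wop hA r hw1 (svec hA Ω c y ys) ∈
            (T1 hA Ω c ⊔ (T0 hA Ω r ⊔ T2 hA Ω c)).topologicalClosure
          rw [e, show w * y = plim hA (w * y) + (w * y - plim hA (w * y)) by abel, svec_add]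
          exact add_mem
            (Submodule.le_topologicalClosure _ (Submodule.mem_sup_left (mul_word_mem ha hys)))
            (Submodule.le_topologicalClosure _ (Submodule.mem_sup_right (Submodule.mem_sup_right
              (Submodule.subset_span ⟨_, sub_mem hwy (hA.mem_M ha), plim_sub_plim hwy,
                Or.inr ⟨ys, hys, rfl⟩⟩))))) hx

end Vale.Agent.P078.TypeIII.Singular
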