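import Vale.Agent.P078.Mix.Main
import Vale.Agent.P078.TypeIII.Singular.Spaces

/-!
# Paving over a singular MASA with respect to a separating central vector

A random colouring paves a self-adjoint contraction killed by `plim` to norm `8 / √r`, up to a
small error at the vector. No trace is used.
-/

set_option linter.unusedSectionVars false

namespace Vale.Agent.P078.TypeIII.Singular

open ComplexInnerProductSpace
open Filter Topology
open Vale.Agent.P078 Vale.Agent.P078.General Vale.Agent.P078.Finite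
open scoped CStarAlgebra

universe u

variable {H : Type u} [NormedAddCommGroup H] [InnerProductSpace ℂ H] [CompleteSpace H]
variable {M : VonNeumannAlgebra H} {A : StarSubalgebra ℂ (H →L[ℂ] H)} {Ω : H}

variable (h : CentSetting M A Ω)
include h

/-- The average moment of one colour. -/
lemma eventually_colour_moment {r : ℕ} (c : Fin r) {w : H →L[ℂ] H} (hw : w ∈ M) (hw1 : ‖w‖ ≤ 1)
    (hw0 : plim h.masa w = 0) (hsing : Sing M A) (k : ℕ) {ε : ℝ} (hε : 0 < ε) :
    ∀ᶠ P in (uf h.masa : Filter (Part A)),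
      ((Fintype.card (Fin P.n → Fin r) : ℝ))⁻¹ *
        ∑ f : Fin P.n → Fin r, ‖((P.piece f c * w * P.piece f c) ^ k) Ω‖ ^ 2
        ≤ ((5 / Real.sqrt r) ^ k * ‖Ω‖) ^ 2 + ε := by
  have hA := h.masa
  set T : Fam hA r → Fam hA r := fun v => (1 / r : ℝ) • Wop hA r hw1 ((1 / r : ℝ) • v + Bop hA c v)
    + Bop hA c (Wop hA r hw1 ((1 / r : ℝ) • v + Bop hA c v)) with hT
  set C := (5 / Real.sqrt r : ℝ) with hC
  have hr1 : (1 : ℝ) ≤ r := by exact_mod_cast c.pos
  have hCle : (1 / r : ℝ) ^ 2 + 2 * (1 / r) + 2 * Real.sqrt ((1 / r) * (1 - 1 / r)) ≤ C := by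
    have hs : 1 ≤ Real.sqrt r := Real.one_le_sqrt.2 hr1
    have hss : Real.sqrt r * Real.sqrt r = r := Real.mul_self_sqrt (by linarith)
    have h1 : (1 : ℝ) / r ≤ 1 / Real.sqrt r :=
      one_div_le_one_div_of_le (by linarith) (by nlinarith)
    have h2 : (1 : ℝ) / r ≤ 1 := (div_le_one (by linarith)).2 hr1
    have h3 : (0 : ℝ) ≤ 1 / r := by positivity
    have h4 : Real.sqrt ((1 / r) * (1 - 1 / r)) ≤ 1 / Real.sqrt r := by
      rw [Real.sqrt_le_left (by positivity), div_pow, one_pow, Real.sq_sqrt (by linarith)]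
      exact mul_le_of_le_one_right h3 (by linarith)
    have h5 : C = 5 * (1 / Real.sqrt r) := by rw [hC]; ring
    rw [h5]
    nlinarith
  have hv0 : cvec hA Ω r 1 ∈
      (T1 hA Ω c ⊔ (T0 hA Ω r ⊔ T2 hA Ω c)).topologicalClosure :=
    Submodule.le_topologicalClosure _ (Submodule.mem_sup_right (Submodule.mem_sup_left
      (Submodule.subset_span ⟨1, one_mem A, rfl⟩)))
  have hiter : ∀ n, T^[n] (cvec hA Ω r 1) ∈
      (T1 hA Ω c ⊔ (T0 hA Ω r ⊔ T2 hA Ω c)).topologicalClosure ∧
      ‖T^[n] (cvec hA Ω r 1)‖ ≤ C ^ n * ‖Ω‖ := by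
    intro n
    induction n with
    | zero =>
      refine ⟨hv0, ?_⟩
      rw [Function.iterate_zero, id, pow_zero, one_mul]
      exact Fam.norm_le_of_eventually (norm_nonneg _)
        (Filter.Eventually.of_forall (fun P f => by rw [cvec_at, one_apply_eq_self]))
    | succ n ih =>
      obtain ⟨hm, hn⟩ := qwq_bound h hsing c hw hw1 hw0 _ ih.1
      rw [Function.iterate_succ_apply']
      refine ⟨hm, hn.trans ?_⟩
      rw [pow_succ' C n, mul_assoc]
      exact mul_le_mul hCle ih.2 (norm_nonneg _) (by positivity)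
  have hstep : ∀ (v : Fam hA r) (P : Part A) (f : Fin P.n → Fin r),
      (T v).at' P f = (P.piece f c * w * P.piece f c) (v.at' P f) := fun v P f => by
    simp only [hT, ← Complex.coe_smul, Fam.at'_add, Fam.at'_smul, Bop_at, Wop_at,
      piece_eq_bOp, mul_apply_eq_comp, add_apply, smul_apply, one_apply_eq_self]
  have hat : ∀ n (P : Part A) (f : Fin P.n → Fin r),
      (T^[n] (cvec hA Ω r 1)).at' P f = ((P.piece f c * w * P.piece f c) ^ n) Ω := by
    intro n P f
    induction n with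
    | zero => rw [Function.iterate_zero, id, cvec_at, pow_zero]
    | succ n ih =>
      rw [Function.iterate_succ_apply', hstep, ih, pow_succ']
      rfl
  have hlim := (T^[k] (cvec hA Ω r 1)).tendsto_norm_sq
  have hlt : ‖T^[k] (cvec hA Ω r 1)‖ ^ 2 < (C ^ k * ‖Ω‖) ^ 2 + ε :=
    lt_of_le_of_lt (pow_le_pow_left₀ (norm_nonneg _) (hiter k).2 2) (by linarith)
  filter_upwards [hlim.eventually (gt_mem_nhds hlt)] with P hP
  simp only [← hat]
  exact hP.le

/-- Clamping to `[-t, t]` changes little when a high moment is small. -/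
lemma clamp_bound {S : H →L[ℂ] H} (hS : IsSelfAdjoint S) {t : ℝ} (ht : 0 < t) (m : ℕ) :
    (t ^ m) ^ 2 * ‖(S - cfc (clamp t) S) Ω‖ ^ 2 ≤ ‖(S ^ (m + 1)) Ω‖ ^ 2 := by
  have hc : Continuous (clamp t) := continuous_const.max (continuous_const.min continuous_id)
  set g : ℝ → ℝ := fun s => (s - clamp t s) * (s - clamp t s) with hg
  have hgc : Continuous g := (continuous_id.sub hc).mul (continuous_id.sub hc)
  have hpos : Pos (cfc (fun s : ℝ => (s ^ (m + 1)) * (s ^ (m + 1)) - (t ^ m) ^ 2 * g s) S) := by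
    refine pos_cfc hS _ (((continuous_pow (m + 1)).mul (continuous_pow (m + 1))).sub
      (continuous_const.mul hgc)) (fun s => ?_)
    rw [sub_nonneg, ← sq, ← sq_abs (s ^ (m + 1)), abs_pow, hg]
    simp only [← sq (s - clamp t s), ← mul_pow]
    rw [← sq_abs (t ^ m * (s - clamp t s)), abs_mul, abs_of_pos (pow_pos ht m)]
    refine pow_le_pow_left₀ (by positivity) ?_ 2
    rcases le_or_gt |s| t with h1 | h1
    · have : clamp t s = s := by
        rw [abs_le] at h1
        rw [clamp, min_eq_right h1.2, max_eq_right h1.1]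
      rw [this, sub_self, abs_zero, mul_zero]
      positivity
    · have h2 : |s - clamp t s| ≤ |s| := by
        rcases lt_abs.1 h1 with h3 | h3
        · rw [clamp, min_eq_left h3.le, max_eq_right (by linarith), abs_of_pos (by linarith),
            abs_of_pos (by linarith)]
          linarith
        · rw [clamp, min_eq_right (by linarith), max_eq_left (by linarith),
            abs_of_neg (by linarith), abs_of_neg (by linarith)]
          linarith
      rw [pow_succ]
      exact mul_le_mul (pow_le_pow_left₀ ht.le h1.le m) h2 (abs_nonneg _) (by positivity)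
  have h1 : S - cfc (clamp t) S = cfc (fun s => s - clamp t s) S := by
    rw [cfc_sub (fun s : ℝ => s) (clamp t) S continuous_id.continuousOn hc.continuousOn,
      cfc_id' ℝ S]
  have h2 : S ^ (m + 1) = cfc (fun s : ℝ => s ^ (m + 1)) S := (cfc_pow_id S (m + 1) hS).symm
  have e : ∀ q : ℝ → ℝ, Continuous q →
      (⟪Ω, cfc (fun s => q s * q s) S Ω⟫).re = ‖cfc q S Ω‖ ^ 2 := by
    intro q hq
    rw [cfc_mul q q S hq.continuousOn hq.continuousOn, @norm_sq_eq_re_inner ℂ, inner_apply,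
      (cfc_predicate q S : IsSelfAdjoint (cfc q S)).star_eq]
    rfl
  have hp := hpos.2 Ω
  rw [cfc_sub (fun s : ℝ => (s ^ (m + 1)) * (s ^ (m + 1))) (fun s => (t ^ m) ^ 2 * g s) S
      ((continuous_pow (m + 1)).mul (continuous_pow (m + 1))).continuousOn
      (continuous_const.mul hgc).continuousOn,
    cfc_const_mul ((t ^ m) ^ 2) g S hgc.continuousOn, sub_apply, smul_apply, inner_sub_right,
    Complex.sub_re, e _ (continuous_pow (m + 1)), ← Complex.coe_smul, inner_smul_right,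
    Complex.re_ofReal_mul, hg, e (fun s => s - clamp t s) (continuous_id.sub hc), ← h1, ← h2] at hp
  linarith

/-- **Paving of the mixing part.** -/
theorem mix_pave {w : H →L[ℂ] H} (hw : w ∈ M) (hws : IsSelfAdjoint w) (hw1 : ‖w‖ ≤ 1)
    (hw0 : plim h.masa w = 0) (hsing : Sing M A) {r : ℕ} (hr : 1 ≤ r) : L2Paved M A Ω (8 / Real.sqrt r) r w := by
  intro η hη
  have hA := h.masa
  have hr0 : (0 : ℝ) < r := by exact_mod_cast hr
  set t := (8 / Real.sqrt r : ℝ) with ht
  have ht0 : 0 < t := by positivity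
  set C := (5 / Real.sqrt r : ℝ) with hC
  have hC0 : 0 ≤ C := by positivity
  obtain ⟨m, hm⟩ : ∃ m : ℕ, r * ((C * ‖Ω‖) ^ 2 * ((5 / 8 : ℝ) ^ 2) ^ m) ≤ η ^ 2 / 2 := by
    have hlim := ((tendsto_pow_atTop_nhds_zero_of_lt_one (by norm_num : (0 : ℝ) ≤ (5 / 8) ^ 2)
      (by norm_num : ((5 : ℝ) / 8) ^ 2 < 1)).const_mul ((C * ‖Ω‖) ^ 2)).const_mul (r : ℝ)
    rw [mul_zero, mul_zero] at hlim
    exact (hlim.eventually (ge_mem_nhds (by positivity : (0 : ℝ) < η ^ 2 / 2))).exists
  set ε := (t ^ m) ^ 2 * η ^ 2 / (2 * r) with hεdef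
  have hε : 0 < ε := by positivity
  obtain ⟨P, hP⟩ := (eventually_all.2
    (fun c : Fin r => eventually_colour_moment h c hw hw1 hw0 hsing (m + 1) hε)).exists
  set B := (r : ℝ) * ((C ^ (m + 1) * ‖Ω‖) ^ 2 + ε) with hB
  have : Nonempty (Fin P.n → Fin r) := ⟨fun _ => ⟨0, hr⟩⟩
  have hN0 : (0 : ℝ) < Fintype.card (Fin P.n → Fin r) := by exact_mod_cast Fintype.card_pos
  obtain ⟨f, -, hf⟩ : ∃ f ∈ (Finset.univ : Finset (Fin P.n → Fin r)),
      ∑ c, ‖((P.piece f c * w * P.piece f c) ^ (m + 1)) Ω‖ ^ 2 ≤ B := by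
    refine Finset.exists_le_of_sum_le Finset.univ_nonempty ?_
    rw [Finset.sum_comm, Finset.sum_const, Finset.card_univ, nsmul_eq_mul]
    calc ∑ c, ∑ f : Fin P.n → Fin r, ‖((P.piece f c * w * P.piece f c) ^ (m + 1)) Ω‖ ^ 2
        ≤ ∑ _c : Fin r, (Fintype.card (Fin P.n → Fin r) : ℝ) * ((C ^ (m + 1) * ‖Ω‖) ^ 2 + ε) := by
          refine Finset.sum_le_sum (fun c _ => ?_)
          have := hP c
          rwa [inv_mul_le_iff₀ hN0] at this
      _ = _ := by
          rw [Finset.sum_const, Finset.card_univ, Fintype.card_fin, nsmul_eq_mul, hB]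
          ring
  obtain ⟨hp, ho, hsum⟩ := P.piece_props f
  refine ⟨P.piece f, hp, ho, hsum, ?_⟩
  set S := ∑ c, P.piece f c * w * P.piece f c with hSdef
  have hSM : S ∈ M :=
    sum_mem (fun c _ => mul_mem (mul_mem (hA.mem_M (hp c).1) hw) (hA.mem_M (hp c).1))
  have hSs : IsSelfAdjoint S := by
    change star S = S
    simp only [hSdef, star_sum, star_mul, (hp _).2.isSelfAdjoint.star_eq, hws.star_eq, mul_assoc]
  refine ⟨cfc (clamp t) S, cfc_mem_M hSM _, cfc_predicate _ S, ?_, ?_⟩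
  · refine norm_cfc_le ht0.le (fun s _ => ?_)
    rw [Real.norm_eq_abs, abs_le]
    exact ⟨le_max_left _ _, max_le (by linarith) (min_le_left _ _)⟩
  have hpow : ‖(S ^ (m + 1)) Ω‖ ^ 2
      = ∑ c, ‖((P.piece f c * w * P.piece f c) ^ (m + 1)) Ω‖ ^ 2 := by
    rw [hSdef, pow_sum_colours, _root_.sum_apply]
    have hsplit : ∀ c, ((P.piece f c * w * P.piece f c) ^ (m + 1)) Ω
        = P.piece f c (w (P.piece f c (((P.piece f c * w * P.piece f c) ^ m) Ω))) := fun c => by
      rw [pow_succ']; rfl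
    simp only [hsplit]
    exact norm_sq_sum_left Finset.univ (P.piece f) (fun c => (hp c).2) ho
      (fun c => w (P.piece f c (((P.piece f c * w * P.piece f c) ^ m) Ω)))
  have hcl := (clamp_bound h hSs ht0 m).trans (hpow.le.trans hf)
  have hBle : B ≤ (t ^ m) ^ 2 * η ^ 2 := by
    have e1 : (C ^ (m + 1) * ‖Ω‖) ^ 2 = (t ^ m) ^ 2 * ((C * ‖Ω‖) ^ 2 * ((5 / 8 : ℝ) ^ 2) ^ m) := by
      have : C = (5 / 8) * t := by rw [hC, ht]; ring
      rw [this]
      generalize (5 / 8 : ℝ) = q
      ring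
    have h2 := mul_le_mul_of_nonneg_left hm (sq_nonneg (t ^ m))
    have e2 : (r : ℝ) * ε = (t ^ m) ^ 2 * η ^ 2 / 2 := by rw [hεdef]; field_simp
    rw [hB, mul_add, e2, e1]
    nlinarith
  exact (sq_le_sq₀ (norm_nonneg _) hη.le).1
    (le_of_mul_le_mul_left (hcl.trans hBle) (by positivity))

end Vale.Agent.P078.TypeIII.Singular
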