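import Vale.Agent.P078.TypeIII.Singular.Vectors

/-!
# A positive normal functional is a countable sum of vector states
-/

set_option linter.unusedSectionVars false

namespace Vale.Agent.P078.TypeIII.Singular

open ComplexInnerProductSpace
open Filter Topology
open Vale.Agent.P078 Vale.Agent.P078.General Vale.Agent.P078.Finite Vale.Agent.P078.Semifinite
open scoped CStarAlgebra

universe u

variable {H : Type u} [NormedAddCommGroup H] [InnerProductSpace ℂ H] [CompleteSpace H]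
variable {M : VonNeumannAlgebra H}

/-- Index set of the sequences. -/
abbrev J1 : Type u := ULift.{u} ℕ

/-- Index set of the double sequences. -/
abbrev J2 : Type u := ULift.{u} (ℕ × ℕ)

lemma exists_emb {m : ℕ} (v : Fin m → H) : ∃ V : Amp J1.{u} H, ∀ i : Fin m, V ⟨i.1⟩ = v i := by
  classical
  refine ⟨∑ i, (lp.single 2 (⟨i.1⟩ : J1.{u}) (v i) : Amp J1.{u} H), fun k => ?_⟩
  rw [lp.coeFn_sum, Finset.sum_apply, Finset.sum_eq_single k (fun i _ hi => ?_) (by simp),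
    lp.single_apply_self]
  exact lp.single_apply_ne _ _ _ (fun e => hi (Fin.ext (congrArg ULift.down e).symm))

/-- Finitely many pairs of vectors, with a bound on `M`, give small square-summable pairs. -/
lemma exists_small_seq {m : ℕ} (v w : Fin m → H) {η : ℝ} (hη : 0 ≤ η)
    (hb : ∀ x ∈ M, ‖∑ i, ⟪w i, x (v i)⟫‖ ≤ η * ‖x‖) :
    ∃ U U' : Amp J1.{u} H, ‖U‖ ^ 2 ≤ η ∧ ‖U'‖ ^ 2 ≤ η ∧
      ∀ x ∈ M, ⟪U', amp x U⟫ = ∑ i, ⟪w i, x (v i)⟫ := by
  classical
  obtain ⟨V, hV⟩ := exists_emb v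
  set W : Amp J1.{u} H := ∑ i, (lp.single 2 (⟨i.1⟩ : J1.{u}) (w i) : Amp J1.{u} H) with hW
  have hinner : ∀ x : H →L[ℂ] H, ⟪W, amp x V⟫ = ∑ i, ⟪w i, x (v i)⟫ := fun x => by
    rw [hW, sum_inner]
    exact Finset.sum_congr rfl (fun i _ => by rw [lp.inner_single_left, amp_apply, hV])
  obtain ⟨U, U', h1, h2, h3⟩ := exists_small_vectors (N := ampVNA M (⟨0⟩ : J1.{u})) V W hη
    (fun X hX => by
      obtain ⟨x, hx, rfl⟩ := mem_ampVNA.1 hX
      rw [hinner, amp_norm]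
      exact hb x hx)
  refine ⟨U, U', h1, (pow_le_pow_left₀ (norm_nonneg _) h2 2).trans h1, fun x hx => ?_⟩
  rw [← h3 _ (mem_ampVNA.2 ⟨x, hx, rfl⟩), hinner]

/-- Flatten a sequence of sequences. -/
lemma exists_flatten (U : ℕ → Amp J1.{u} H) (hU : Summable (fun n => ‖U n‖ ^ 2)) :
    ∃ a : Amp J2.{u} H, ∀ j : J2.{u}, a j = U j.down.1 ⟨j.down.2⟩ := by
  have hs : Summable (fun j : J2.{u} => ‖U j.down.1 ⟨j.down.2⟩‖ ^ 2) := by
    have h0 : Summable (fun p : ℕ × ℕ => ‖U p.1 ⟨p.2⟩‖ ^ 2) := by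
      refine (summable_prod_of_nonneg (fun p => sq_nonneg _)).2 ⟨fun n => ?_, ?_⟩
      · exact ((Equiv.ulift.symm : ℕ ≃ J1.{u}).hasSum_iff.2 (amp_hasSum (U n))).summable
      · refine hU.congr (fun n => ?_)
        exact ((Equiv.ulift.symm : ℕ ≃ J1.{u}).hasSum_iff.2 (amp_hasSum (U n))).tsum_eq.symm
    exact (Equiv.ulift : J2.{u} ≃ ℕ × ℕ).summable_iff.2 h0
  exact ⟨⟨fun j => U j.down.1 ⟨j.down.2⟩, amp_memℓp hs⟩, fun _ => rfl⟩

open ComplexOrder in
/-- **Vector representation of positive normal functionals.** -/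
theorem exists_amp_vector (ψ : (H →L[ℂ] H) →ₗ[ℂ] ℂ) (hpos : ∀ x ∈ M, 0 ≤ ψ (star x * x))
    (hnormal : ∀ ε : ℝ, 0 < ε → ∃ (n : ℕ) (v w : Fin n → H),
      ∀ x ∈ M, ‖ψ x - ∑ i, ⟪w i, x (v i)⟫‖ ≤ ε * ‖x‖) :
    ∃ U : Amp J2.{u} H, ∀ x ∈ M, ⟪U, amp x U⟫ = ψ x := by
  classical
  choose m v w happ using fun n : ℕ => hnormal ((1 / 2 : ℝ) ^ n) (by positivity)
  set Fn : ℕ → (H →L[ℂ] H) → ℂ := fun n x => ∑ i, ⟪w n i, x (v n i)⟫ with hFn
  set D : ℕ → (H →L[ℂ] H) → ℂ := fun n x => Nat.casesOn n (Fn 0 x) (fun k => Fn (k + 1) x - Fn k x)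
    with hD
  set C0 := ∑ i, ‖w 0 i‖ * ‖v 0 i‖
  have hC0 : 0 ≤ C0 := Finset.sum_nonneg (fun i _ => by positivity)
  have hDstep : ∀ n, ∃ U U' : Amp J1.{u} H, ‖U‖ ^ 2 ≤ (3 + C0) * (1 / 2 : ℝ) ^ n ∧
      ‖U'‖ ^ 2 ≤ (3 + C0) * (1 / 2 : ℝ) ^ n ∧ ∀ x ∈ M, ⟪U', amp x U⟫ = D n x := by
    intro n
    cases n with
    | zero =>
      exact exists_small_seq (v 0) (w 0) (by positivity) (fun x _ => by
        refine (norm_sum_le _ _).trans ((Finset.sum_le_sum (fun i _ =>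
          (norm_inner_le_norm _ _).trans (mul_le_mul_of_nonneg_left (x.le_opNorm _)
            (norm_nonneg _)))).trans ?_)
        rw [pow_zero, mul_one, show ∑ i, ‖w 0 i‖ * (‖x‖ * ‖v 0 i‖) = C0 * ‖x‖ by
          rw [Finset.sum_mul]; exact Finset.sum_congr rfl (fun i _ => by ring)]
        exact mul_le_mul_of_nonneg_right (by linarith) (norm_nonneg _))
    | succ k =>
      obtain ⟨U, U', h1, h2, h3⟩ := exists_small_seq (M := M) (Fin.append (v (k + 1)) (v k))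
        (Fin.append (w (k + 1)) (fun i => -(w k i))) (η := (3 + C0) * (1 / 2 : ℝ) ^ (k + 1))
        (by positivity) (fun x hx => by
          rw [Fin.sum_univ_add]
          simp only [Fin.append_left, Fin.append_right, inner_neg_left, Finset.sum_neg_distrib,
            ← sub_eq_add_neg]
          have e1 := happ (k + 1) x hx
          have e2 := happ k x hx
          rw [norm_sub_rev] at e1
          refine (norm_sub_le_norm_sub_add_norm_sub _ (ψ x) _).trans ?_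
          have e3 : (1 / 2 : ℝ) ^ k = 2 * (1 / 2 : ℝ) ^ (k + 1) := by rw [pow_succ]; ring
          rw [e3] at e2
          nlinarith [mul_nonneg (mul_nonneg hC0 (norm_nonneg x))
            (pow_nonneg (by norm_num : (0 : ℝ) ≤ 1 / 2) (k + 1))])
      refine ⟨U, U', h1, h2, fun x hx => ?_⟩
      rw [h3 x hx, Fin.sum_univ_add]
      simp [hD, hFn, sub_eq_add_neg]
  choose U U' hUn hU'n hUD using hDstep
  have hgeo : Summable (fun n : ℕ => (3 + C0) * (1 / 2 : ℝ) ^ n) :=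
    summable_geometric_two.mul_left _
  obtain ⟨a, ha⟩ := exists_flatten U
    (Summable.of_nonneg_of_le (fun _ => sq_nonneg _) hUn hgeo)
  obtain ⟨b, hb⟩ := exists_flatten U'
    (Summable.of_nonneg_of_le (fun _ => sq_nonneg _) hU'n hgeo)
  have hab : ∀ x ∈ M, ⟪b, amp x a⟫ = ψ x := by
    intro x hx
    have h1 := lp.hasSum_inner (𝕜 := ℂ) b (amp x a)
    simp only [amp_apply, ha, hb] at h1
    have h2 : HasSum (fun n => D n x) ⟪b, amp x a⟫ := by
      refine HasSum.prod_fiberwise ((Equiv.ulift : J2.{u} ≃ ℕ × ℕ).symm.hasSum_iff.2 h1)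
        (fun n => ?_)
      rw [← hUD n x hx]
      exact (Equiv.ulift.symm : ℕ ≃ J1.{u}).hasSum_iff.2 (lp.hasSum_inner (U' n) (amp x (U n)))
    have h3 : ∀ n, ∑ i ∈ Finset.range (n + 1), D i x = Fn n x := by
      intro n
      induction n with
      | zero => simp [hD]
      | succ k ih => rw [Finset.sum_range_succ, ih]; simp [hD]
    refine tendsto_nhds_unique
      ((h2.tendsto_sum_nat.comp (tendsto_add_atTop_nat 1)).congr (fun n => h3 n)) ?_
    refine tendsto_iff_norm_sub_tendsto_zero.2 (squeeze_zero (g := fun n => (1 / 2 : ℝ) ^ n * ‖x‖)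
      (fun _ => norm_nonneg _) (fun n => by rw [norm_sub_rev]; exact happ n x hx) ?_)
    simpa using (tendsto_pow_atTop_nhds_zero_of_lt_one (by norm_num : (0 : ℝ) ≤ 1 / 2)
      (by norm_num)).mul_const ‖x‖
  let G : (Amp J2.{u} H →L[ℂ] Amp J2.{u} H) →ₗ[ℂ] ℂ :=
    { toFun := fun T => ⟪b, T a⟫
      map_add' := fun S T => by simp
      map_smul' := fun c T => by simp }
  have hGψ : ∀ x ∈ M, G (star (amp x : Amp J2.{u} H →L[ℂ] Amp J2.{u} H) * amp x)
      = ψ (star x * x) := fun x hx => by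
    rw [← hab _ (mul_mem (star_mem hx) hx)]
    change ⟪b, _⟫ = ⟪b, (ampHom (J := J2.{u}) (H := H)) (star x * x) a⟫
    rw [map_mul, map_star, ampHom_apply]
  have hG : PosOn (ampVNA M (⟨(0, 0)⟩ : J2.{u})) G := by
    intro Y hY
    obtain ⟨y, hy, rfl⟩ := mem_ampVNA.1 hY
    rw [hGψ y hy]
    have := Complex.nonneg_iff.1 (hpos y hy)
    exact ⟨this.1, this.2.symm⟩
  obtain ⟨X, hX⟩ := exists_vector_of_dominated hG ((1 / 2 : ℂ) • (b + a)) (fun Y hY => by
    have e1 : G (star Y * Y) = ⟪Y b, Y a⟫ := by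
      change ⟪b, star Y (Y a)⟫ = _
      rw [ContinuousLinearMap.star_eq_adjoint, ContinuousLinearMap.adjoint_inner_right]
    rw [e1, map_smul, map_add, norm_smul, mul_pow, norm_add_sq (𝕜 := ℂ), RCLike.re_to_complex]
    have h2 := norm_sub_sq (𝕜 := ℂ) (Y b) (Y a)
    rw [RCLike.re_to_complex] at h2
    have h3 := sq_nonneg ‖Y b - Y a‖
    norm_num
    linarith)
  exact ⟨X, fun x hx => by rw [← hX _ (mem_ampVNA.2 ⟨x, hx, rfl⟩)]; exact hab x hx⟩

end Vale.Agent.P078.TypeIII.Singular
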