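import Vale.Agent.P078.General.Corner
import Vale.Agent.P078.TypeIII.Singular.Decay

/-!
# A singular MASA has no partial isometry normalisers outside it
-/

set_option linter.unusedSectionVars false

namespace Vale.Agent.P078.TypeIII.Singular

open Vale.Agent.P078 Vale.Agent.P078.General Vale.Agent.P078.Finite

universe u

variable {H : Type u} [NormedAddCommGroup H] [InnerProductSpace ℂ H] [CompleteSpace H]
variable {M : VonNeumannAlgebra H} {A : StarSubalgebra ℂ (H →L[ℂ] H)}

/-- The MASA is singular: every unitary `u` of `M` with `u A u⋆ = A` lies in `A`. -/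
def IsSingularMASA (M : VonNeumannAlgebra H) (A : StarSubalgebra ℂ (H →L[ℂ] H)) : Prop :=
  ∀ u ∈ M, star u * u = 1 → u * star u = 1 →
    (fun a => u * a * star u) '' (A : Set (H →L[ℂ] H)) = (A : Set (H →L[ℂ] H)) → u ∈ A

/-- Symmetrising a normaliser which moves a projection away gives a unitary normaliser. -/
lemma eq_zero_of_moved (hA : IsMASAIn M A) (hsing : IsSingularMASA M A) {w : H →L[ℂ] H}
    (hw : IsNormaliser M A w) (horth : star w * w * (w * star w) = 0) : w = 0 := by
  set e := star w * w with he
  set f := w * star w with hf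
  have heA : e ∈ A := hw.src_mem
  have hfA : f ∈ A := hw.rng_mem
  have hfe : f * e = 0 := (hA.comm hfA heA).trans horth
  have hww : w * w = 0 := by
    calc w * w = w * (e * f) * w := by
          rw [← mul_assoc w e f, he, hw.mul_src, mul_assoc, hf, hw.rng_mul]
      _ = 0 := by rw [horth, mul_zero, zero_mul]
  have hss : star w * star w = 0 := by rw [← star_mul, hww, star_zero]
  have hee : e * e = e := hw.src_proj.isIdempotentElem.eq
  have hff : f * f = f := hw.rng_proj.isIdempotentElem.eq
  set d := 1 - e - f with hd
  have hdA : d ∈ A := sub_mem (sub_mem (one_mem A) heA) hfA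
  have hds : star d = d := by
    simp [hd, he, hf]
  have hdd : d * d = d := by
    simp only [hd, sub_mul, mul_sub, one_mul, mul_one, hee, hff, horth, hfe]
    abel
  have hwd : w * d = 0 := by
    have h1 : w * e = w := hw.mul_src
    have h2 : w * f = 0 := by rw [← h1, mul_assoc, horth, mul_zero]
    simp [hd, mul_sub, h1, h2]
  have hdw : d * w = 0 := by
    have h1 : f * w = w := hw.rng_mul
    have h2 : e * w = 0 := by rw [← h1, ← mul_assoc, horth, zero_mul]
    simp [hd, sub_mul, h1, h2]
  have hsd : star w * d = 0 := by rw [← hds, ← star_mul, hdw, star_zero]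
  have hds' : d * star w = 0 := by rw [← hds, ← star_mul, hwd, star_zero]
  set u := w + star w + d with hu
  have hus : star u = u := by simp [hu, hds, add_comm (star w) w]
  have huu : u * u = 1 := by
    simp only [hu, add_mul, mul_add, hww, hss, hwd, hdw, hsd, hds', hdd, zero_add, add_zero,
      ← he, ← hf]
    rw [hd]
    abel
  have huM : u ∈ M := add_mem (add_mem hw.mem (star_mem hw.mem)) (hA.mem_M hdA)
  have hconj : ∀ a ∈ A, u * a * u ∈ A := by
    intro a ha
    have hea : e * a = a * e := hA.comm heA ha
    have hfa : f * a = a * f := hA.comm hfA ha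
    have x1 : w * a * w = 0 := by
      calc w * a * w = w * e * a * (f * w) := by rw [hf, hw.rng_mul, he, hw.mul_src]
        _ = w * (e * a * f) * w := by simp only [mul_assoc]
        _ = 0 := by rw [hea, mul_assoc a e f, horth, mul_zero, mul_zero, zero_mul]
    have x2 : star w * a * star w = 0 := by
      calc star w * a * star w = star w * f * a * (e * star w) := by
            rw [he, hw.src_mul_star, hf, ← mul_assoc (star w), hw.src_mul_star]
        _ = star w * (f * a * e) * star w := by simp only [mul_assoc]
        _ = 0 := by rw [hfa, mul_assoc a f e, hfe, mul_zero, mul_zero, zero_mul]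
    have x3 : w * a * d = 0 := by rw [mul_assoc, hA.comm ha hdA, ← mul_assoc, hwd, zero_mul]
    have x4 : d * a * w = 0 := by rw [hA.comm hdA ha, mul_assoc, hdw, mul_zero]
    have x5 : star w * a * d = 0 := by rw [mul_assoc, hA.comm ha hdA, ← mul_assoc, hsd, zero_mul]
    have x6 : d * a * star w = 0 := by rw [hA.comm hdA ha, mul_assoc, hds', mul_zero]
    simp only [hu, add_mul, mul_add, x1, x2, x3, x4, x5, x6, zero_add, add_zero]
    exact add_mem (add_mem (hw.conj_mem' ha) (hw.conj_mem ha)) (mul_mem (mul_mem hdA ha) hdA)
  have huA : u ∈ A := by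
    refine hsing u huM (by rw [hus, huu]) (by rw [hus, huu]) (Set.Subset.antisymm ?_ ?_)
    · rintro _ ⟨a, ha, rfl⟩
      simp only [hus]
      exact hconj a ha
    · intro a ha
      refine ⟨u * a * u, hconj a ha, ?_⟩
      simp only [hus, ← mul_assoc, huu, one_mul]
      rw [mul_assoc, huu, mul_one]
  have h1 : u * e = w := by
    simp only [hu, add_mul, he, hw.mul_src]
    rw [← mul_assoc (star w), hss, zero_mul, add_zero]
    rw [hd, he]
    simp only [sub_mul, one_mul]
    rw [← he, hee, hfe, sub_zero, sub_self, add_zero]
  have h2 : e * u = w := by rw [hA.comm heA huA, h1]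
  calc w = e * w := by
        calc w = e * u := h2.symm
          _ = e * (e * u) := by rw [← mul_assoc, hee]
          _ = e * w := by rw [h2]
    _ = e * (f * w) := by rw [hf, hw.rng_mul]
    _ = 0 := by rw [← mul_assoc, horth, zero_mul]

/-- A singular MASA contains all its partial isometry normalisers. -/
theorem sing_of_singular (hA : IsMASAIn M A) (hsing : IsSingularMASA M A) : Sing M A := by
  intro v hv
  set p := star v * v with hp
  set q := v * star v with hq
  have hpA : p ∈ A := hv.src_mem
  have hqA : q ∈ A := hv.rng_mem
  have hzero : ∀ e ∈ A, IsStarProjection e → p * e = e → e * (v * e * star v) = 0 → e = 0 := by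
    intro e heA he hpe h0
    have hn : IsNormaliser M A (v * e) :=
      IsNormaliser.mul hA hv (isNormaliser_proj hA he heA)
    have e1 : star (v * e) * (v * e) = e := by
      rw [star_mul, he.isSelfAdjoint.star_eq]
      calc e * star v * (v * e) = e * (p * e) := by simp only [hp, mul_assoc]
        _ = e := by rw [hpe, he.isIdempotentElem.eq]
    have e2 : v * e * star (v * e) = v * e * star v := by
      rw [star_mul, he.isSelfAdjoint.star_eq, ← mul_assoc, mul_assoc v e e,
        he.isIdempotentElem.eq]
    have := eq_zero_of_moved hA hsing hn (by rw [e1, e2]; exact h0)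
    rw [← e1, this, mul_zero]
  have hlow : ∀ e ∈ A, IsStarProjection e → p * e = e → e * (v * e * star v) = e := by
    intro e heA he hpe
    set s := v * e * star v with hs
    have hsA : s ∈ A := hv.conj_mem heA
    have hsp : IsStarProjection s := hv.conj_proj hA heA he
    set e' := e * (1 - s) with he'
    have he'A : e' ∈ A := mul_mem heA (sub_mem (one_mem A) hsA)
    have h0 : e' = 0 := by
      refine hzero e' he'A (hA.mul_proj he hsp.one_sub heA (sub_mem (one_mem A) hsA))
        (by rw [he', ← mul_assoc, hpe]) ?_
      rw [he', ← hv.conj_mul hA heA, ← hs]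
      calc e * (1 - s) * (s * (v * (1 - s) * star v))
          = e * ((1 - s) * s) * (v * (1 - s) * star v) := by simp only [mul_assoc]
        _ = 0 := by rw [sub_mul, one_mul, hsp.isIdempotentElem.eq, sub_self, mul_zero, zero_mul]
    rw [he', mul_sub, mul_one, sub_eq_zero] at h0
    exact h0.symm
  have hpq : p * q = p := by
    have := hlow p hpA hv.src_proj hv.src_proj.isIdempotentElem.eq
    rwa [hp, hv.mul_src, ← hp, ← hq] at this
  have hzero' : ∀ e ∈ A, IsStarProjection e → q * e = e → e * (star v * e * v) = 0 → e = 0 := by
    intro e heA he hqe h0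
    have hn : IsNormaliser M A (star v * e) :=
      IsNormaliser.mul hA hv.adjoint (isNormaliser_proj hA he heA)
    have e1 : star (star v * e) * (star v * e) = e := by
      rw [star_mul, star_star, he.isSelfAdjoint.star_eq]
      calc e * v * (star v * e) = e * (q * e) := by simp only [hq, mul_assoc]
        _ = e := by rw [hqe, he.isIdempotentElem.eq]
    have e2 : star v * e * star (star v * e) = star v * e * v := by
      rw [star_mul, star_star, he.isSelfAdjoint.star_eq, ← mul_assoc, mul_assoc (star v) e e,
        he.isIdempotentElem.eq]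
    have := eq_zero_of_moved hA hsing hn (by rw [e1, e2]; exact h0)
    rw [← e1, this, mul_zero]
  have hqp : q * p = q := by
    have h0 : q * (1 - p) = 0 := by
      refine hzero' _ (mul_mem hqA (sub_mem (one_mem A) hpA))
        (hA.mul_proj hv.rng_proj hv.src_proj.one_sub hqA (sub_mem (one_mem A) hpA))
        (by rw [← mul_assoc, hv.rng_proj.isIdempotentElem.eq]) ?_
      have e1 : (1 - p) * star v = 0 := by rw [sub_mul, one_mul, hp, hv.src_mul_star, sub_self]
      calc q * (1 - p) * (star v * (q * (1 - p)) * v)
          = q * ((1 - p) * star v) * ((q * (1 - p)) * v) := by simp only [mul_assoc]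
        _ = 0 := by rw [e1, mul_zero, zero_mul]
    rw [mul_sub, mul_one, sub_eq_zero] at h0
    exact h0.symm
  have hpeq : p = q := by rw [← hpq, hA.comm hpA hqA, hqp]
  have hfix : ∀ e ∈ A, IsStarProjection e → p * e = e → v * e * star v = e := by
    intro e heA he hpe
    have hep : e * p = e := (hA.comm heA hpA).trans hpe
    set e₂ := p - e with he₂
    have h2A : e₂ ∈ A := sub_mem hpA heA
    have h2p : IsStarProjection e₂ := he.sub_of_mul_eq_left hv.src_proj hep
    have h1 := hlow e heA he hpe
    have h2 := hlow e₂ h2A h2p (by rw [he₂, mul_sub, hv.src_proj.isIdempotentElem.eq, hpe])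
    set s := v * e * star v with hs
    have hsA : s ∈ A := hv.conj_mem heA
    have hse : v * e₂ * star v = p - s := by
      have e0 : v * p * star v = p := by rw [hp, hv.mul_src]; exact hpeq.symm
      rw [he₂, mul_sub, sub_mul, e0]
    rw [hse] at h2
    have hps : p * s = s := by rw [hpeq, hs, hq]; simp only [← mul_assoc, hv.rng_mul]
    have h3 : e₂ * s = 0 := by
      have h4 : e₂ * p = e₂ := by rw [he₂, sub_mul, hv.src_proj.isIdempotentElem.eq, hep]
      rw [mul_sub, h4, sub_eq_self] at h2
      exact h2
    rw [he₂, sub_mul, hps, h1, sub_eq_zero] at h3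
    exact h3
  have hcomm : ∀ e ∈ A, IsStarProjection e → e * v = v * e := by
    intro e heA he
    have hpeA : p * e ∈ A := mul_mem hpA heA
    have hpep : IsStarProjection (p * e) := hA.mul_proj hv.src_proj he hpA heA
    have h1 := hfix _ hpeA hpep (by rw [← mul_assoc, hv.src_proj.isIdempotentElem.eq])
    have hvp : v * p = v := hv.mul_src
    have hpv : p * v = v := by rw [hpeq]; exact hv.rng_mul
    calc e * v = e * (p * v) := by rw [hpv]
      _ = p * e * v := by rw [← mul_assoc, hA.comm heA hpA]
      _ = v * (p * e) * star v * v := by rw [h1]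
      _ = v * ((p * e) * p) := by simp only [hp, mul_assoc]
      _ = v * (p * (p * e)) := by rw [hA.comm hpeA hpA]
      _ = v * e := by rw [← mul_assoc, hvp, ← mul_assoc, hvp]
  exact hA.mem_of_commute (hA.comm_of_comm_proj hcomm)
    (fun m hm => commute_of_mem_centralizer hv.mem hm)

end Vale.Agent.P078.TypeIII.Singular
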