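import Vale.Agent.P078.Semifinite.Main
import Vale.Agent.P078.TypeIII.Singular.Main
import Vale.Agent.P078.TypeIII.Singular.NormalVec
import Vale.Agent.P078.TypeIII.Singular.Unitary

/-!
# Vector states with the MASA in the centraliser, below the expected projection

The support of a central normal functional is a projection `g` of the MASA; the algebra
`g M g + ℂ (1 - g)`, amplified, then has a separating vector with the MASA in its centraliser.
-/

set_option linter.unusedSectionVars false

namespace Vale.Agent.P078.TypeIII.Singular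

open ComplexInnerProductSpace
open Filter Topology
open Vale.Agent.P078 Vale.Agent.P078.General Vale.Agent.P078.Finite Vale.Agent.P078.Semifinite
open scoped CStarAlgebra

universe u

variable {H : Type u} [NormedAddCommGroup H] [InnerProductSpace ℂ H] [CompleteSpace H]
variable {M : VonNeumannAlgebra H} {A : StarSubalgebra ℂ (H →L[ℂ] H)}

/-- `g` is a projection of `A` below the expected one, on which the vectors `U j` give a faithful
functional with `A` in its centraliser. -/
structure Cut (hA : IsMASAIn M A) {ι : Type u} (g : H →L[ℂ] H) (U : Amp ι H) : Prop where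
  mem : g ∈ A
  proj : IsStarProjection g
  le : g * eProj hA = g
  fix : ∀ j, g (U j) = U j
  central : ∀ a ∈ A, ∀ z ∈ M, ⟪U, amp (a * z) U⟫ = ⟪U, amp (z * a) U⟫
  faith : ∀ y ∈ M, (∀ j, y (U j) = 0) → y * g = 0

variable {ι : Type u} {ξ : Amp ι H} {g : H →L[ℂ] H}

lemma Cut.fin {hA : IsMASAIn M A} (hc : Cut hA g ξ) : IsTr (⇑ξ) g :=
  (amp_hasSum ξ).summable.congr (fun i => by rw [hc.fix i])

lemma Cut.faith' (hA : IsMASAIn M A) (hc : Cut hA g ξ) (z : H →L[ℂ] H) (hz : z ∈ M)
    (h0 : ∀ i, z (ξ i) = 0) (hzg : z * g = z) : z = 0 :=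
  hzg.symm.trans (hc.faith z hz h0)

/-- A projection of `A` carrying a cut. -/
def HasCut (hA : IsMASAIn M A) (g : H →L[ℂ] H) : Prop :=
  ∃ (ι : Type u) (U : Amp ι H), Cut hA g U

lemma HasCut.mem {hA : IsMASAIn M A} (hg : HasCut hA g) : g ∈ A := by
  obtain ⟨ι, U, hU⟩ := hg
  exact hU.mem

lemma HasCut.proj {hA : IsMASAIn M A} (hg : HasCut hA g) : IsStarProjection g := by
  obtain ⟨ι, U, hU⟩ := hg
  exact hU.proj

lemma HasCut.le {hA : IsMASAIn M A} (hg : HasCut hA g) : g * eProj hA = g := by
  obtain ⟨ι, U, hU⟩ := hg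
  exact hU.le

lemma hasCut_zero (hA : IsMASAIn M A) : HasCut hA (0 : H →L[ℂ] H) :=
  ⟨J2.{u}, 0, zero_mem A, IsStarProjection.zero _, zero_mul _, fun j => by simp,
    fun a _ z _ => by simp, fun y _ _ => mul_zero y⟩

/-- Two amplified vectors side by side. -/
lemma exists_sum_vec {ι₁ ι₂ : Type u} (U : Amp ι₁ H) (V : Amp ι₂ H) :
    ∃ W : Amp (ι₁ ⊕ ι₂) H, (∀ i, W (Sum.inl i) = U i) ∧ (∀ i, W (Sum.inr i) = V i) ∧
      ∀ z : H →L[ℂ] H, ⟪W, amp z W⟫ = ⟪U, amp z U⟫ + ⟪V, amp z V⟫ := by
  let W : Amp (ι₁ ⊕ ι₂) H := ⟨Sum.elim (fun i => U i) (fun i => V i),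
    amp_memℓp (Summable.sum _ (amp_hasSum U).summable (amp_hasSum V).summable)⟩
  have hl : ∀ i, W (Sum.inl i) = U i := fun i => rfl
  have hr : ∀ i, W (Sum.inr i) = V i := fun i => rfl
  refine ⟨W, hl, hr, fun z => ?_⟩
  refine (lp.hasSum_inner (𝕜 := ℂ) W (amp z W)).unique (HasSum.sum ?_ ?_)
  · exact (lp.hasSum_inner (𝕜 := ℂ) U (amp z U)).congr_fun
      (fun i => by simp only [Function.comp_apply, amp_apply, hl])
  · exact (lp.hasSum_inner (𝕜 := ℂ) V (amp z V)).congr_fun
      (fun i => by simp only [Function.comp_apply, amp_apply, hr])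

lemma HasCut.join {hA : IsMASAIn M A} {h : H →L[ℂ] H} (hg : HasCut hA g) (hh : HasCut hA h) :
    ∃ j, HasCut hA j ∧ j * g = g ∧ j * h = h := by
  obtain ⟨ι₁, U, hU⟩ := hg
  obtain ⟨ι₂, V, hV⟩ := hh
  have h1 : (1 - g) ∈ A := sub_mem (one_mem A) hU.mem
  have hgg := hU.proj.isIdempotentElem.eq
  have hhh := hV.proj.isIdempotentElem.eq
  have hc := hA.comm hV.mem hU.mem
  set j := g + (1 - g) * h with hj
  have hjA : j ∈ A := add_mem hU.mem (mul_mem h1 hV.mem)
  have hjg : j * g = g := by
    rw [hj, add_mul, hgg, mul_assoc, hc, ← mul_assoc, sub_mul, one_mul, hgg, sub_self, zero_mul,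
      add_zero]
  have hjh : j * h = h := by
    rw [hj, add_mul, mul_assoc, hhh, sub_mul, one_mul, add_sub_cancel]
  obtain ⟨W, hWl, hWr, hW⟩ := exists_sum_vec U V
  refine ⟨j, ⟨ι₁ ⊕ ι₂, W, ?_⟩, hjg, hjh⟩
  refine { mem := hjA, proj := ?_, le := ?_, fix := ?_, central := fun a ha z hz => ?_, faith := fun y hy h0 => ?_ }
  · exact hU.proj.add (hA.mul_proj hU.proj.one_sub hV.proj h1 hV.mem)
      (by rw [← mul_assoc, mul_sub, mul_one, hgg, sub_self, zero_mul])
  · rw [hj, add_mul, mul_assoc, hU.le, hV.le]
  · rintro (i | i)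
    · rw [hWl]
      conv_lhs => rw [← hU.fix i, ← mul_apply_eq_comp, hjg, hU.fix i]
    · rw [hWr]
      conv_lhs => rw [← hV.fix i, ← mul_apply_eq_comp, hjh, hV.fix i]
  · rw [hW, hW, hU.central a ha z hz, hV.central a ha z hz]
  · rw [hj, mul_add, hU.faith y hy (fun i => by simpa [hWl] using h0 (Sum.inl i)), zero_add,
      hA.comm h1 hV.mem, ← mul_assoc, hV.faith y hy (fun i => by simpa [hWr] using h0 (Sum.inr i)), zero_mul]

/-- The support of a central normal functional, cut below the expected projection. -/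
lemma exists_support_cut (hA : IsMASAIn M A) {ψ : (H →L[ℂ] H) →ₗ[ℂ] ℂ}
    (hψ : IsCentralNormal M A ψ) : ∃ (g : H →L[ℂ] H) (U : Amp J2.{u} H), Cut hA g U ∧
      ∀ z ∈ M, ψ (eProj hA * z * eProj hA) = ⟪U, amp z U⟫ := by
  obtain ⟨U0, hU0⟩ := exists_amp_vector ψ hψ.1 hψ.2.2
  obtain ⟨s, hs, hsN, hsU, hsep, -⟩ := exists_cyclic_proj (M := ampVNA M (⟨(0, 0)⟩ : J2.{u})) U0
  obtain ⟨g0, hg0M, rfl⟩ := mem_ampVNA.1 hsN
  have hne : Nonempty J2.{u} := ⟨⟨(0, 0)⟩⟩
  have hg0 : IsStarProjection g0 := by
    refine ⟨amp_inj (J := J2.{u}) ?_, amp_inj (J := J2.{u}) ?_⟩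
    · change (ampHom (J := J2.{u}) (H := H)) (g0 * g0) = _
      rw [map_mul]
      exact hs.isIdempotentElem
    · rw [amp_star]
      exact hs.isSelfAdjoint
  have hfaith : ∀ y ∈ M, (∀ j, y (U0 j) = 0) → y * g0 = 0 := fun y hy h0 => by
    refine amp_inj (J := J2.{u}) ?_
    change (ampHom (J := J2.{u}) (H := H)) (y * g0) = (ampHom (J := J2.{u}) (H := H)) 0
    rw [map_mul, map_zero]
    exact hsep _ (mem_ampVNA.2 ⟨y, hy, rfl⟩) (lp.ext (funext fun j => by simp [ampHom_apply, h0]))
  have hfix0 : ∀ j, g0 (U0 j) = U0 j := fun j => by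
    simpa using congrArg (fun v : Amp J2.{u} H => v j) hsU
  -- centrality makes the support commute with `A`
  have hcomm : ∀ a ∈ A, a * g0 = g0 * a := by
    have h1 : ∀ a ∈ A, (1 - g0) * a * g0 = 0 := by
      intro a ha
      set z := 1 - g0 with hz
      have hzM : z ∈ M := sub_mem (one_mem M) hg0M
      have hzU : ∀ j, z (U0 j) = 0 := fun j => by simp [hz, hfix0]
      have haM := hA.mem_M ha
      refine hfaith _ (mul_mem hzM haM) (fun j => ?_)
      suffices hv : (amp (z * a) U0 : Amp J2.{u} H) = 0 by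
        simpa using congrArg (fun v : Amp J2.{u} H => v j) hv
      refine inner_self_eq_zero (𝕜 := ℂ).1 ?_
      calc ⟪amp (z * a) U0, amp (z * a) U0⟫ = ⟪U0, amp (star (z * a) * (z * a)) U0⟫ := by
            rw [← ContinuousLinearMap.adjoint_inner_right, ← ContinuousLinearMap.star_eq_adjoint,
              ← amp_star]
            congr 1
        _ = ψ (star a * (star z * (z * a))) := by
            rw [hU0 _ (mul_mem (star_mem (mul_mem hzM haM)) (mul_mem hzM haM)), star_mul]
            simp only [mul_assoc]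
        _ = ψ (star z * (z * a) * star a) :=
            hψ.2.1 _ (star_mem ha) _ (mul_mem (star_mem hzM) (mul_mem hzM haM))
        _ = ⟪U0, amp (star z * (z * a) * star a) U0⟫ :=
            (hU0 _ (mul_mem (mul_mem (star_mem hzM) (mul_mem hzM haM))
              (star_mem haM))).symm
        _ = ⟪amp z U0, amp (z * a * star a) U0⟫ := by
            rw [← ContinuousLinearMap.adjoint_inner_right, ← ContinuousLinearMap.star_eq_adjoint,
              ← amp_star]
            congr 1
        _ = 0 := by
            rw [show amp z U0 = 0 from lp.ext (funext fun j => by simp [hzU j]), inner_zero_left]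
    intro a ha
    have h2 : a * g0 = g0 * (a * g0) := by
      have := h1 a ha
      rwa [sub_mul, one_mul, sub_mul, sub_eq_zero, mul_assoc] at this
    have h3 := h1 (star a) (star_mem ha)
    rw [sub_mul, one_mul, sub_mul, sub_eq_zero] at h3
    have h4 := congrArg star h3
    simp only [star_mul, star_star, hg0.isSelfAdjoint.star_eq] at h4
    rw [h2]
    exact h4.symm
  have hg0A : g0 ∈ A := hA.mem_of_commute hcomm (fun m hm => commute_of_mem_centralizer hg0M hm)
  set e := eProj hA
  have heA : e ∈ A := eProj_mem hA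
  have he : IsStarProjection e := eProj_proj hA
  have hee : e * e = e := he.isIdempotentElem.eq
  have heM := hA.mem_M heA
  have hUe : ∀ z ∈ M, ψ (e * z * e) = ⟪amp e U0, amp z (amp e U0)⟫ := by
    intro z hz
    rw [← hU0 _ (mul_mem (mul_mem heM hz) heM), ← ContinuousLinearMap.adjoint_inner_right,
      ← ContinuousLinearMap.star_eq_adjoint, ← amp_star, he.isSelfAdjoint.star_eq]
    congr 1
  refine ⟨g0 * e, amp e U0, ⟨mul_mem hg0A heA, hA.mul_proj hg0 he hg0A heA,
    by rw [mul_assoc, hee], fun j => ?_, fun a ha z hz => ?_, fun y hy h0 => ?_⟩, hUe⟩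
  · change g0 (e (e (U0 j))) = e (U0 j)
    rw [← mul_apply_eq_comp e e, hee, ← mul_apply_eq_comp g0 e, hA.comm hg0A heA,
      mul_apply_eq_comp, hfix0]
  · have haM := hA.mem_M ha
    rw [← hUe _ (mul_mem haM hz), ← hUe _ (mul_mem hz haM)]
    calc ψ (e * (a * z) * e) = ψ (a * (e * z * e)) := by
          rw [← mul_assoc e a, hA.comm heA ha]; simp only [mul_assoc]
      _ = ψ (e * z * e * a) := hψ.2.1 a ha _ (mul_mem (mul_mem heM hz) heM)
      _ = ψ (e * (z * a) * e) := by
          rw [mul_assoc (e * z) e a, hA.comm heA ha]; simp only [mul_assoc]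
  · rw [hA.comm hg0A heA, ← mul_assoc]
    exact hfaith _ (mul_mem hy heM) (fun j => h0 j)

lemma exists_cut_subproj (hA : IsMASAIn M A) {p : H →L[ℂ] H} (hpA : p ∈ A)
    (hp : IsStarProjection p) (hpe : p * eProj hA = p) (hne : p ≠ 0) :
    ∃ s, HasCut hA s ∧ s ≠ 0 ∧ s * p = s := by
  obtain ⟨ψ, hψ, hψp⟩ := exists_central_normal_ne_zero hA (hA.mem_M hpA) hp.isSelfAdjoint
    (fun v => by rw [proj_inner_apply hp, re_inner_self]; positivity) hpe hne
  obtain ⟨g, U, hU, hUe⟩ := exists_support_cut hA hψ
  have hgA := hU.mem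
  refine ⟨g * p, ⟨J2.{u}, amp p U, mul_mem hgA hpA, hA.mul_proj hU.proj hp hgA hpA, ?_,
    fun j => ?_, fun a ha z hz => ?_, fun y hy h0 => ?_⟩, fun h0 => hψp ?_,
    by rw [mul_assoc, hp.isIdempotentElem.eq]⟩
  · rw [mul_assoc, hpe]
  · change g (p (p (U j))) = p (U j)
    rw [proj_apply_apply hp, ← mul_apply_eq_comp g p, hA.comm hgA hpA, mul_apply_eq_comp, hU.fix]
  · have hc : ∀ w : H →L[ℂ] H, ⟪amp p U, amp w (amp p U)⟫ = ⟪U, amp (p * w * p) U⟫ := fun w => by
      rw [← ContinuousLinearMap.adjoint_inner_right, ← ContinuousLinearMap.star_eq_adjoint,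
        ← amp_star, hp.isSelfAdjoint.star_eq]
      congr 1
    have hpM := hA.mem_M hpA
    rw [hc, hc]
    calc ⟪U, amp (p * (a * z) * p) U⟫ = ⟪U, amp (a * (p * z * p)) U⟫ := by
          rw [← mul_assoc p a, hA.comm hpA ha]; simp only [mul_assoc]
      _ = ⟪U, amp (p * z * p * a) U⟫ := hU.central a ha _ (mul_mem (mul_mem hpM hz) hpM)
      _ = ⟪U, amp (p * (z * a) * p) U⟫ := by
          rw [mul_assoc (p * z) p a, hA.comm hpA ha]; simp only [mul_assoc]
  · rw [hA.comm hgA hpA, ← mul_assoc]
    exact hU.faith _ (mul_mem hy (hA.mem_M hpA)) (fun j => h0 j)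
  · have hep : eProj hA * p * eProj hA = p := by
      rw [hA.comm (eProj_mem hA) hpA, mul_assoc, (eProj_proj hA).isIdempotentElem.eq, hpe]
    rw [← hep, hUe _ (hA.mem_M hpA)]
    have : amp p U = 0 := lp.ext (funext fun j => by
      rw [amp_apply, ← hU.fix j, ← mul_apply_eq_comp, hA.comm hpA hgA, h0]
      rfl)
    rw [this, inner_zero_right]

/-- The expected corner is a strong limit of cuts. -/
lemma exists_cut_below (hA : IsMASAIn M A) (F : Finset H) {δ : ℝ} (hδ : 0 < δ) :
    ∃ g, HasCut hA g ∧ ∀ v ∈ F, ‖(eProj hA - g) v‖ < δ := by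
  classical
  set e := eProj hA with he'
  have he : IsStarProjection e := eProj_proj hA
  have heA : e ∈ A := eProj_mem hA
  let U : Submodule ℂ H :=
    { carrier := {v | ∃ g, HasCut hA g ∧ g v = v}
      zero_mem' := ⟨0, (hasCut_zero hA), rfl⟩
      add_mem' := by
        rintro v w ⟨g, hg, hgv⟩ ⟨h, hh, hhw⟩
        obtain ⟨j, hj, hjg, hjh⟩ := hg.join hh
        refine ⟨j, hj, ?_⟩
        conv_lhs => rw [← hgv, ← hhw, map_add, ← mul_apply_eq_comp, ← mul_apply_eq_comp, hjg, hjh,
          hgv, hhw]
      smul_mem' := by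
        rintro c v ⟨g, hg, hgv⟩
        exact ⟨g, hg, by rw [map_smul, hgv]⟩ }
  let W := U.topologicalClosure
  have : CompleteSpace W := Submodule.topologicalClosure.completeSpace _
  have hinv : ∀ T : H →L[ℂ] H, (∀ g, HasCut hA g → g * T = T * g) → ∀ v ∈ W, T v ∈ W := by
    intro T hTc v hv
    refine Submodule.topologicalClosure_minimal (t := Submodule.comap (T : H →ₗ[ℂ] H) W) _ ?_
      ((Submodule.isClosed_topologicalClosure _).preimage T.continuous) hv
    rintro w ⟨g, hg, hgw⟩
    refine Submodule.le_topologicalClosure _ ⟨g, hg, ?_⟩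
    change g (T w) = T w
    rw [← mul_apply_eq_comp, hTc g hg, mul_apply_eq_comp, hgw]
  set Q := W.starProjection with hQ
  have hQA : Q ∈ A := hA.proj_mem W (fun a ha => hinv a (fun g hg => hA.comm hg.mem ha))
    (fun z hz => hinv z (fun g hg => (commute_of_mem_centralizer (hA.mem_M hg.mem) hz).symm))
  have hQp : IsStarProjection Q := isStarProjection_starProjection
  have heQ : e * Q = Q := by
    refine ContinuousLinearMap.ext (fun v => ?_)
    have hW : ∀ w ∈ W, e w = w := by
      intro w hw
      refine (isClosed_eq e.continuous continuous_id).closure_subset_iff.2 ?_ hw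
      rintro u ⟨g, hg, hgu⟩
      change e u = u
      conv_lhs => rw [← hgu, ← mul_apply_eq_comp, hA.comm heA hg.mem, hg.le, hgu]
    exact hW _ (W.starProjection_apply_mem v)
  have hQe : Q * e = Q := (hA.comm hQA heA).trans heQ
  have hQeq : Q = e := by
    by_contra hne
    obtain ⟨s, hs, hs0, hsp⟩ := exists_cut_subproj hA (p := e - Q) (sub_mem heA hQA)
      (hQp.sub_of_mul_eq_left he hQe) (by rw [sub_mul, he.isIdempotentElem.eq, hQe])
      (sub_ne_zero.2 (Ne.symm hne))
    have h1 : Q * s = s := ContinuousLinearMap.ext (fun v =>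
      Submodule.starProjection_eq_self_iff.2
        (Submodule.le_topologicalClosure _ ⟨s, hs, proj_apply_apply hs.proj v⟩))
    have h2 : s * Q = 0 := by
      conv_lhs => rw [← hsp]
      rw [mul_assoc, sub_mul, heQ, hQp.isIdempotentElem.eq, sub_self, mul_zero]
    rw [hA.comm hQA hs.mem, h2] at h1
    exact hs0 h1.symm
  have key : ∀ v, ∃ g, HasCut hA g ∧ ‖(e - g) v‖ < δ := by
    intro v
    have hv : e v ∈ W := by rw [← hQeq]; exact W.starProjection_apply_mem v
    obtain ⟨w, ⟨g, hg, hgw⟩, hd⟩ := Metric.mem_closure_iff.1 hv δ hδ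
    refine ⟨g, hg, lt_of_le_of_lt ?_ (by rwa [dist_eq_norm] at hd)⟩
    have e1 : (e - g) v = (1 - g) (e v - w) := by
      simp only [sub_apply, map_sub, one_apply_eq_self, hgw]
      rw [← mul_apply_eq_comp g e, hg.le]
      abel
    rw [e1]
    exact proj_norm_le hg.proj.one_sub _
  induction F using Finset.induction with
  | empty => exact ⟨0, (hasCut_zero hA), by simp⟩
  | insert v F _ ih =>
    obtain ⟨g, hg, hgF⟩ := ih
    obtain ⟨g', hg', hgv⟩ := key v
    obtain ⟨j, hj, hjg, hjg'⟩ := hg.join hg'
    have hmono : ∀ k, HasCut hA k → j * k = k → ∀ w, ‖(e - j) w‖ ≤ ‖(e - k) w‖ := by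
      intro k hk hjk w
      have e1 : e - j = (1 - j) * (e - k) := by
        rw [sub_mul, one_mul, mul_sub, hjk, hj.le]
        abel
      rw [e1]
      exact proj_norm_le hj.proj.one_sub _
    refine ⟨j, hj, fun w hw => ?_⟩
    rcases Finset.mem_insert.1 hw with rfl | hw
    · exact (hmono g' hg' hjg' w).trans_lt hgv
    · exact (hmono g hg hjg w).trans_lt (hgF w hw)


/-- The value at the amplified vector. -/
lemma inner_traceVec (η : H) {hA : IsMASAIn M A} (hc : Cut hA g ξ) (z : H →L[ℂ] H) :
    ⟪traceVec (⇑ξ) g hc.fin η, amp z (traceVec (⇑ξ) g hc.fin η)⟫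
      = ⟪ξ, amp z ξ⟫ + ⟪η, z η⟫ := by
  classical
  set Ω := traceVec (⇑ξ) g hc.fin η with hΩ
  have hs : ∀ i, Ω (some i) = ξ i := fun i => by rw [hΩ, traceVec_some, hc.fix]
  have h1 := lp.hasSum_inner (𝕜 := ℂ) Ω (amp z Ω)
  have h2 := h1.sub (hasSum_ite_eq (none : Option ι) ⟪η, z η⟫)
  have h3 := ((Option.some_injective ι).hasSum_iff (a := ⟪Ω, amp z Ω⟫ - ⟪η, z η⟫)
    (fun j hj => ?_)).2 h2
  · have h4 := (lp.hasSum_inner (𝕜 := ℂ) ξ (amp z ξ)).unique (h3.congr_fun (fun i => by
      simp [hs]))
    rw [h4, sub_add_cancel]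
  · cases j with
    | none => simp [hΩ, traceVec_none]
    | some i => exact absurd ⟨i, rfl⟩ hj

/-- The amplified corner below a cut has a separating vector with the MASA in its centraliser. -/
lemma centSetting (hA : IsMASAIn M A) (hg : Cut hA g ξ) {η : H} (hη : (1 - g) η = η)
    (hη1 : g = 1 ∨ ‖η‖ = 1) :
    CentSetting (ampVNA (scalarCorner M g) (none : Option ι)) (cornerMasa M A g)
      (traceVec (⇑ξ) g hg.fin η) := by
  have hgp := hg.proj
  have hgg := hgp.isIdempotentElem.eq
  have hgM : g ∈ M := hA.mem_M hg.mem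
  refine ⟨?_, ?_, ?_⟩
  · refine Set.Subset.antisymm (fun T hT' => ?_) ?_
    · obtain ⟨a, ha, haN, rfl⟩ := mem_cornerMasa.1 hT'
      refine ⟨fun S hS => ?_, mem_ampVNA.2 ⟨a, haN, rfl⟩⟩
      obtain ⟨b, hb, -, rfl⟩ := mem_cornerMasa.1 hS
      change (ampHom (J := Option ι) (H := H)) b * (ampHom (J := Option ι) (H := H)) a = (ampHom (J := Option ι) (H := H)) a * (ampHom (J := Option ι) (H := H)) b
      rw [← map_mul, ← map_mul, hA.comm hb ha]
    · rintro T ⟨hTc, hTM⟩
      obtain ⟨y, hy, rfl⟩ := mem_ampVNA.1 hTM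
      refine mem_cornerMasa.2 ⟨y, ?_, hy, rfl⟩
      obtain ⟨hyM, hyg, -⟩ := (scalarCorner_spec hgp y).1 hy
      obtain ⟨c, hc⟩ := exists_scalar hgp hη hη1 hy
      refine hA.mem_of_commute (fun a ha => ?_) (fun m hm => commute_of_mem_centralizer hyM hm)
      have hag : a * g ∈ A := mul_mem ha hg.mem
      have hcom : g * (a * g) = a * g := by
        rw [← mul_assoc, hA.comm hg.mem ha, mul_assoc, hgg]
      have hag' : a * g ∈ scalarCorner M g :=
        mem_scalarCorner_of_below hgp (hA.mem_M hag) hcom (by rw [mul_assoc, hgg])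
      have h1 : a * g * y = y * (a * g) := by
        have := hTc _ (mem_cornerMasa.2 ⟨a * g, hag, hag', rfl⟩)
        change (ampHom (J := Option ι) (H := H)) (a * g) * (ampHom (J := Option ι) (H := H)) y
          = (ampHom (J := Option ι) (H := H)) y * (ampHom (J := Option ι) (H := H)) (a * g) at this
        rw [← map_mul, ← map_mul] at this
        exact amp_inj this
      have hy' : (1 - g) * y = y * (1 - g) := by
        rw [sub_mul, one_mul, hyg, mul_sub, mul_one]
      have h2 : a * (1 - g) * y = y * (a * (1 - g)) := by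
        calc a * (1 - g) * y = a * (y * (1 - g)) := by rw [mul_assoc, hy']
          _ = c • (a * (1 - g)) := by rw [hc, mul_smul_comm]
          _ = (c • (1 - g)) * a := by
              rw [smul_mul_assoc, hA.comm (sub_mem (one_mem A) hg.mem) ha]
          _ = y * ((1 - g) * a) := by rw [← hc, mul_assoc]
          _ = _ := by rw [hA.comm (sub_mem (one_mem A) hg.mem) ha]
      calc a * y = a * g * y + a * (1 - g) * y := by
            rw [← add_mul, ← mul_add, add_sub_cancel, mul_one]
        _ = y * (a * g) + y * (a * (1 - g)) := by rw [h1, h2]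
        _ = y * a := by rw [← mul_add, ← mul_add, add_sub_cancel, mul_one]
  · intro X hX Y hY
    obtain ⟨a, ha, haN, rfl⟩ := mem_cornerMasa.1 hX
    obtain ⟨y, hy, rfl⟩ := mem_ampVNA.1 hY
    obtain ⟨hyM, -, -⟩ := (scalarCorner_spec hgp y).1 hy
    obtain ⟨c, hc⟩ := exists_scalar hgp hη hη1 hy
    obtain ⟨c', hc'⟩ := exists_scalar hgp hη hη1 haN
    have hyη : y η = c • η := by
      conv_lhs => rw [← hη, ← mul_apply_eq_comp, hc, smul_apply, hη]
    have haη : a η = c' • η := by
      conv_lhs => rw [← hη, ← mul_apply_eq_comp, hc', smul_apply, hη]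
    have e : ∀ S T : H →L[ℂ] H, (amp S * amp T : Amp (Option ι) H →L[ℂ] Amp (Option ι) H)
        = amp (S * T) := fun S T => (map_mul (ampHom (J := Option ι) (H := H)) S T).symm
    rw [e, e, inner_traceVec η hg, inner_traceVec η hg, hg.central a ha y hyM]
    congr 1
    simp only [mul_apply_eq_comp, hyη, haη, map_smul, smul_smul, mul_comm c c']
  · intro X hX h0
    obtain ⟨x, hx, rfl⟩ := mem_ampVNA.1 hX
    obtain ⟨hxM, hxg, -⟩ := (scalarCorner_spec hgp x).1 hx
    obtain ⟨c, hc⟩ := exists_scalar hgp hη hη1 hx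
    have h1 : x * g = 0 := hg.faith' hA _ (mul_mem hxM hgM) (fun i => by
      have := congrArg (fun v : Amp (Option ι) H => v (some i)) h0
      simpa [traceVec_some] using this) (by rw [mul_assoc, hgg])
    have h2 : x * (1 - g) = 0 := by
      rcases hη1 with hh | hh
      · simp [hh]
      have h3 := congrArg (fun v : Amp (Option ι) H => v none) h0
      have h4 : (x * (1 - g)) η = 0 := by
        rw [mul_apply_eq_comp, hη]
        simpa [traceVec_none] using h3
      rw [hc, smul_apply, hη, smul_eq_zero] at h4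
      rcases h4 with h4 | h4
      · rw [hc, h4, zero_smul]
      · rw [h4, norm_zero] at hh; norm_num at hh
    have : x = 0 := by rw [← mul_one x, ← add_sub_cancel g 1, mul_add, h1, h2, add_zero]
    rw [this]
    exact map_zero (ampHom (J := Option ι) (H := H))

/-- Singularity passes to the amplified corner. -/
lemma sing_cornerMasa (hA : IsMASAIn M A) (hsing : Sing M A) (hg : Cut hA g ξ) {η : H}
    (hη : (1 - g) η = η) (hη1 : g = 1 ∨ ‖η‖ = 1) :
    Sing (ampVNA (scalarCorner M g) (none : Option ι)) (cornerMasa (ι := ι) M A g) := by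
  rintro V ⟨hV, hV1, hV2, hV3, hV4⟩
  obtain ⟨y, hy, rfl⟩ := mem_ampVNA.1 hV
  refine mem_cornerMasa.2 ⟨y, ?_, hy, rfl⟩
  have hgp := hg.proj
  have hgA := hg.mem
  have hgg := hgp.isIdempotentElem.eq
  have hgM : g ∈ M := hA.mem_M hgA
  obtain ⟨hyM, hyg, -⟩ := (scalarCorner_spec hgp y).1 hy
  obtain ⟨c, hc⟩ := exists_scalar hgp hη hη1 hy
  have hsg : star y * g = g * star y := by
    have := congrArg star hyg
    rwa [star_mul, star_mul, hgp.isSelfAdjoint.star_eq] at this
  have hdown : ∀ T : H →L[ℂ] H, (amp T : Amp (Option ι) H →L[ℂ] Amp (Option ι) H) ∈ cornerMasa M A g →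
      T ∈ A := by
    intro T hT
    obtain ⟨a, ha, -, he⟩ := mem_cornerMasa.1 hT
    rwa [← amp_inj (J := Option ι) he]
  have e : ∀ S T : H →L[ℂ] H, (amp S * amp T : Amp (Option ι) H →L[ℂ] Amp (Option ι) H)
      = amp (S * T) := fun S T => (map_mul (ampHom (J := Option ι) (H := H)) S T).symm
  rw [← amp_star, e] at hV1 hV2 hV3
  have hp : IsStarProjection (star y * y) := by
    refine ⟨amp_inj (J := Option ι) ?_, IsSelfAdjoint.star_mul_self y⟩
    rw [← e]
    exact hV1.isIdempotentElem
  have hyyA := hdown _ hV2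
  have hyyA' := hdown _ hV3
  -- the part below `g` is a normaliser of `A`
  set w := y * g with hw
  have hwM : w ∈ M := mul_mem hyM hgM
  have hcomm : g * (star y * y) = star y * y * g := hA.comm hgA hyyA
  have hw1 : star w * w = star y * y * g := by
    rw [hw, star_mul, hgp.isSelfAdjoint.star_eq]
    calc g * star y * (y * g) = g * (star y * y) * g := by simp only [mul_assoc]
      _ = _ := by rw [hcomm, mul_assoc, hgg]
  have hw2 : w * star w = y * star y * g := by
    rw [hw, star_mul, hgp.isSelfAdjoint.star_eq]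
    calc y * g * (g * star y) = y * (g * g) * star y := by simp only [mul_assoc]
      _ = y * (g * star y) := by rw [hgg, mul_assoc]
      _ = _ := by rw [← hsg, mul_assoc]
  have hwn : IsNormaliser M A w := by
    refine ⟨hwM, ?_, ?_, ?_, fun a ha => ?_⟩
    · rw [hw1]; exact hA.mul_proj hp hgp hyyA hgA
    · rw [hw1]; exact mul_mem hyyA hgA
    · rw [hw2]; exact mul_mem hyyA' hgA
    have hag : g * a * g ∈ A := mul_mem (mul_mem hgA ha) hgA
    have hag' : g * a * g ∈ scalarCorner M g := mem_scalarCorner_of_below hgp (hA.mem_M hag)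
      (by simp only [← mul_assoc, hgg]) (by rw [mul_assoc _ g g, hgg])
    obtain ⟨h5, h6⟩ := hV4 _ (mem_cornerMasa.2 ⟨_, hag, hag', rfl⟩)
    rw [← amp_star, e, e] at h5 h6
    refine ⟨?_, ?_⟩
    · have : w * a * star w = y * (g * a * g) * star y := by
        rw [hw, star_mul, hgp.isSelfAdjoint.star_eq]; simp only [mul_assoc]
      rw [this]
      exact hdown _ h5
    · have : star w * a * w = star y * (g * a * g) * y := by
        have hyg' : g * y = y * g := by rw [hw] at hyg; exact hyg
        rw [hw, star_mul, hgp.isSelfAdjoint.star_eq, ← hyg', ← hsg]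
        simp only [mul_assoc]
      rw [this]
      exact hdown _ h6
  have : y = w + c • (1 - g) := by
    rw [hw, ← hc, ← mul_add, add_sub_cancel, mul_one]
  rw [this]
  exact add_mem (hsing w hwn) (A.toSubalgebra.smul_mem (sub_mem (one_mem A) hgA) c)

/-- The core, read inside a finite-trace corner: any paving statement for the amplified corner
gives one below the cut. -/
lemma exists_corner_paving_of {r : ℕ} {c : ℝ} (hA : IsMASAIn M A)
    {g : H →L[ℂ] H} (hg : Cut hA g ξ) {y : H →L[ℂ] H} (hy : y ∈ M)
    (hys : IsSelfAdjoint y) (hy1 : ‖y‖ ≤ 1) (hgy : g * y = y) (hyg : y * g = y)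
    (hy0 : plim hA y = 0) {η₀ : ℝ} (hη₀ : 0 < η₀)
    (hcore : ∀ η : H, (1 - g) η = η → (g = 1 ∨ ‖η‖ = 1) →
      ∀ h : CentSetting (ampVNA (scalarCorner M g) (none : Option ι)) (cornerMasa M A g)
        (traceVec (⇑ξ) g hg.fin η), ∀ w ∈ ampVNA (scalarCorner M g) (none : Option ι),
        IsSelfAdjoint w → ‖w‖ ≤ 1 → plim h.masa w = 0 →
          L2Paved (ampVNA (scalarCorner M g) (none : Option ι)) (cornerMasa M A g)
            (traceVec (⇑ξ) g hg.fin η) c r w) :
    ∃ f : Fin r → (H →L[ℂ] H), (∀ i, f i ∈ A ∧ IsStarProjection (f i)) ∧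
      (∀ i j, i ≠ j → f i * f j = 0) ∧ ∑ i, f i = 1 ∧
      ∃ z ∈ M, ‖z‖ ≤ c ∧ ∀ l, ‖((∑ i, f i * y * f i) - z) (g (ξ l))‖ ≤ η₀ := by
  classical
  obtain ⟨η, hη, hη1⟩ : ∃ η, (1 - g) η = η ∧ (g = 1 ∨ ‖η‖ = 1) := by
    by_cases h1 : g = 1
    · exact ⟨0, map_zero _, Or.inl h1⟩
    obtain ⟨v, hv⟩ : ∃ v, (1 - g) v ≠ 0 := by
      by_contra! hcon
      exact h1 (sub_eq_zero.1 (ContinuousLinearMap.ext hcon)).symm
    refine ⟨((‖(1 - g) v‖⁻¹ : ℝ) : ℂ) • (1 - g) v, ?_, Or.inr ?_⟩
    · rw [map_smul, proj_apply_apply hg.proj.one_sub]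
    · rw [norm_smul, Complex.norm_real, norm_inv, norm_norm,
        inv_mul_cancel₀ (norm_ne_zero_iff.2 hv)]
  have h := centSetting hA hg hη hη1
  have hgp := hg.proj
  have hgg := hgp.isIdempotentElem.eq
  have hyN : y ∈ scalarCorner M g := mem_scalarCorner_of_below hgp hy hgy hyg
  set Ω := traceVec (⇑ξ) g hg.fin η with hΩ
  have hsnd : ∀ (T : Amp (Option ι) H →L[ℂ] Amp (Option ι) H) (z : H →L[ℂ] H), amp z = T →
      IsStarProjection T → IsStarProjection z := by
    rintro T z rfl hp
    refine ⟨amp_inj (J := Option ι) ?_, amp_inj (J := Option ι) ?_⟩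
    · change (ampHom (J := Option ι) (H := H)) (z * z) = _
      rw [map_mul]
      exact hp.isIdempotentElem
    · rw [amp_star]
      exact hp.isSelfAdjoint
  -- the expectation of the amplified element vanishes
  have hplim : plim h.masa (amp y) = 0 := by
    obtain ⟨a, haA, haN, ha⟩ := mem_cornerMasa.1
      (plim_mem h.masa (mem_ampVNA.2 ⟨y, hyN, rfl⟩ : amp y ∈ _))
    have hzero : ∀ l, a (g (ξ l)) = 0 := by
      intro l
      rcases subsingleton_or_nontrivial (H →L[ℂ] H) with hs | hs
      · rw [Subsingleton.elim a 0, zero_apply]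
      have hconv : Tendsto (fun P : Part A => P.pinch y (g (ξ l))) (uf hA)
          (𝓝 (a (g (ξ l)))) := by
        rw [Metric.tendsto_nhds]
        intro ε hε
        obtain ⟨P0, hP0⟩ := TypeIII.tendsto_pinch h (mem_ampVNA.2 ⟨y, hyN, rfl⟩ : amp y ∈ _) (half_pos hε)
        choose fb hfA hfN hfe using fun j => mem_cornerMasa.1 (P0.mem j)
        have hfp : ∀ j, IsStarProjection (fb j) := fun j => hsnd _ _ (hfe j) (P0.proj j)
        let P1 : Part A :=
          { n := P0.n
            e := fb
            mem := hfA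
            proj := hfp
            orth := fun i j hij => amp_inj (J := Option ι) (by
              change (ampHom (J := Option ι) (H := H)) (fb i * fb j) = (ampHom (J := Option ι) (H := H)) 0
              rw [map_mul, map_zero, ampHom_apply, ampHom_apply, hfe, hfe, P0.orth i j hij])
            total := amp_inj (J := Option ι) (by
              change (ampHom (J := Option ι) (H := H)) (∑ j, fb j) = (ampHom (J := Option ι) (H := H)) 1
              rw [map_sum, map_one, ← P0.total]
              exact Finset.sum_congr rfl (fun j _ => hfe j)) }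
        filter_upwards [eventually_finer hA P1] with P hP
        have hgA := hg.mem
        have h1g : 1 - g ∈ A := sub_mem (one_mem A) hgA
        let e' : Fin (P.n + 1) → (H →L[ℂ] H) := Fin.snoc (fun j => g * P.e j) (1 - g)
        have he'A : ∀ j, e' j ∈ A := fun j => by
          induction j using Fin.lastCases with
          | last => simpa [e'] using h1g
          | cast j => simpa [e'] using mul_mem hgA (P.mem j)
        have he'p : ∀ j, IsStarProjection (e' j) := fun j => by
          induction j using Fin.lastCases with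
          | last => simpa [e'] using hgp.one_sub
          | cast j => simpa [e'] using hA.mul_proj hgp (P.proj j) hgA (P.mem j)
        have h1gg : (1 - g) * g = 0 := by rw [sub_mul, one_mul, hgg, sub_self]
        have hg1g : g * (1 - g) = 0 := by rw [mul_sub, mul_one, hgg, sub_self]
        have he'N : ∀ j, e' j ∈ scalarCorner M g := fun j => by
          induction j using Fin.lastCases with
          | last =>
            have : e' (Fin.last P.n) = 1 - g := by simp [e']
            rw [this]
            exact sub_mem (one_mem _) (mem_scalarCorner_of_below hgp (hA.mem_M hgA) hgg hgg)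
          | cast j =>
            have : e' j.castSucc = g * P.e j := by simp [e']
            rw [this]
            refine mem_scalarCorner_of_below hgp (hA.mem_M (mul_mem hgA (P.mem j))) ?_ ?_
            · rw [← mul_assoc, hgg]
            · rw [mul_assoc, hA.comm (P.mem j) hgA, ← mul_assoc, hgg]
        have htot : ∑ j, e' j = 1 := by
          simp [e', Fin.sum_univ_castSucc, ← Finset.mul_sum, P.total]
        let P' : Part (cornerMasa (ι := ι) M A g) :=
          { n := P.n + 1
            e := fun j => amp (e' j)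
            mem := fun j => mem_cornerMasa.2 ⟨_, he'A j, he'N j, rfl⟩
            proj := fun j => ⟨by
                change (ampHom (J := Option ι) (H := H)) (e' j) * (ampHom (J := Option ι) (H := H)) (e' j) = (ampHom (J := Option ι) (H := H)) (e' j)
                rw [← map_mul, (he'p j).isIdempotentElem.eq], by
                change star (amp (e' j)) = amp (e' j)
                rw [← amp_star, (he'p j).isSelfAdjoint.star_eq]⟩
            orth := fun i j hij => by
              change (ampHom (J := Option ι) (H := H)) (e' i) * (ampHom (J := Option ι) (H := H)) (e' j) = 0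
              rw [← map_mul]
              suffices e' i * e' j = 0 by rw [this, map_zero]
              induction i using Fin.lastCases with
              | last =>
                induction j using Fin.lastCases with
                | last => exact absurd rfl hij
                | cast j => simp [e', ← mul_assoc, h1gg]
              | cast i =>
                induction j using Fin.lastCases with
                | last =>
                  simp only [e', Fin.snoc_castSucc, Fin.snoc_last]
                  rw [mul_assoc, hA.comm (P.mem i) h1g, ← mul_assoc, hg1g, zero_mul]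
                | cast j =>
                  have hij' : i ≠ j := fun e => hij (by rw [e])
                  simp only [e', Fin.snoc_castSucc]
                  calc g * P.e i * (g * P.e j) = g * (P.e i * g) * P.e j := by
                        simp only [mul_assoc]
                    _ = g * g * (P.e i * P.e j) := by
                        rw [hA.comm (P.mem i) hgA]; simp only [mul_assoc]
                    _ = 0 := by rw [P.orth i j hij', mul_zero]
            total := by
              change ∑ j, (ampHom (J := Option ι) (H := H)) (e' j) = 1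
              rw [← map_sum, htot, map_one] }
        have hP' : P0 ≤ P' := by
          intro j
          induction j using Fin.lastCases with
          | cast j =>
            obtain ⟨i, hi⟩ := hP j
            refine ⟨i, ?_⟩
            change P0.e i * amp (e' j.castSucc) = amp (e' j.castSucc)
            rw [← hfe]
            change (ampHom (J := Option ι) (H := H)) (fb i) * (ampHom (J := Option ι) (H := H)) (e' j.castSucc) = _
            rw [← map_mul, ampHom_apply]
            congr 1
            simp only [e', Fin.snoc_castSucc]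
            have hi' : fb i * P.e j = P.e j := hi
            rw [← mul_assoc, hA.comm (hfA i) hgA, mul_assoc, hi']
          | last =>
            have hex : ∃ i, fb i * (1 - g) = 1 - g := by
              rcases hη1 with hh | hh
              · rcases Nat.eq_zero_or_pos P1.n with hn | hn
                · exfalso
                  have ht := P1.total
                  rw [Finset.sum_eq_zero (fun i _ => absurd i.2 (by omega))] at ht
                  exact zero_ne_one ht
                · exact ⟨⟨0, hn⟩, by simp [hh]⟩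
              · by_contra! hcon
                have h0 : ∀ i, fb i * (1 - g) = 0 := fun i => by
                  obtain ⟨cst, hcst⟩ := exists_scalar hgp hη (Or.inr hh) (hfN i)
                  have hsq : fb i * (1 - g) * (fb i * (1 - g)) = fb i * (1 - g) :=
                    (hA.mul_proj (hfp i) hgp.one_sub (hfA i) h1g).isIdempotentElem
                  rw [hcst, smul_mul_smul_comm, hgp.one_sub.isIdempotentElem.eq] at hsq
                  have hne : (1 - g) ≠ 0 := fun e0 => by
                    rw [e0, zero_apply] at hη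
                    rw [← hη, norm_zero] at hh
                    norm_num at hh
                  have hcc : cst * cst = cst := smul_left_injective ℂ hne hsq
                  rcases eq_or_ne cst 0 with h00 | h00
                  · rw [hcst, h00, zero_smul]
                  · exfalso
                    refine hcon i ?_
                    rw [hcst, mul_left_cancel₀ h00 (hcc.trans (mul_one cst).symm), one_smul]
                have ht := congrArg (· * (1 - g)) P1.total
                simp only [Finset.sum_mul, one_mul] at ht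
                rw [Finset.sum_eq_zero (fun i _ => h0 i)] at ht
                rw [← ht, zero_apply] at hη
                rw [← hη, norm_zero] at hh
                norm_num at hh
            obtain ⟨i, hi⟩ := hex
            refine ⟨i, ?_⟩
            change P0.e i * amp (e' (Fin.last P.n)) = amp (e' (Fin.last P.n))
            rw [← hfe]
            change (ampHom (J := Option ι) (H := H)) (fb i) * (ampHom (J := Option ι) (H := H)) (e' (Fin.last P.n)) = _
            rw [← map_mul, ampHom_apply]
            congr 1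
            simpa [e'] using hi
        have hpin : P'.pinch (amp y) = amp (P.pinch y) := by
          change ∑ j, (ampHom (J := Option ι) (H := H)) (e' j) * (ampHom (J := Option ι) (H := H)) y * (ampHom (J := Option ι) (H := H)) (e' j)
            = (ampHom (J := Option ι) (H := H)) (P.pinch y)
          simp only [← map_mul, ← map_sum]
          congr 1
          rw [Fin.sum_univ_castSucc]
          simp only [e', Fin.snoc_castSucc, Fin.snoc_last]
          have e0 : (1 - g) * y = 0 := by rw [sub_mul, one_mul, hgy, sub_self]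
          rw [e0, zero_mul, add_zero]
          refine Finset.sum_congr rfl (fun j _ => ?_)
          calc g * P.e j * y * (g * P.e j) = P.e j * (g * y * g) * P.e j := by
                rw [hA.comm hgA (P.mem j)]
                simp only [mul_assoc]
                rw [← hA.comm hgA (P.mem j)]
            _ = P.e j * y * P.e j := by rw [hgy, hyg]
        have h3 := hP0 P' hP'
        rw [hpin, ← ha] at h3
        have h4 := lp.norm_apply_le_norm (p := 2) (by norm_num)
          ((amp (P.pinch y) - amp a : Amp (Option ι) H →L[ℂ] Amp (Option ι) H) Ω) (some l)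
        rw [dist_eq_norm]
        refine lt_of_le_of_lt ?_ (half_lt_self hε)
        refine le_trans (le_of_eq ?_) (h4.trans h3)
        simp [hΩ, traceVec_some]
      have h6 : ∀ w, ⟪a (g (ξ l)), w⟫ = 0 := fun w =>
        tendsto_nhds_unique (hconv.inner tendsto_const_nhds) (by
          have := tendsto_plim hA y (g (ξ l)) w
          rwa [hy0, zero_apply, inner_zero_left] at this)
      exact inner_self_eq_zero.1 (h6 _)
    have hag : a * g = 0 := hg.faith' hA _ (mul_mem (hA.mem_M haA) (hA.mem_M hg.mem)) hzero (by rw [mul_assoc, hgg])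
    have hz : plim h.masa (amp y) = 0 := by
      refine h.faithful _ (h.masa.mem_M (plim_mem h.masa (mem_ampVNA.2 ⟨y, hyN, rfl⟩))) ?_
      rw [← ha]
      have ha1 : a η = 0 := by
        have h9 : plim h.masa (amp (1 - g) * amp y) = amp (1 - g) * plim h.masa (amp y) :=
          plim_mul_left h.masa (mem_cornerMasa.2 ⟨1 - g, sub_mem (one_mem A) hg.mem,
            sub_mem (one_mem _) (mem_scalarCorner_of_below hgp (hA.mem_M hg.mem) hgg hgg), rfl⟩) _
        have e0 : (amp (1 - g) * amp y : Amp (Option ι) H →L[ℂ] Amp (Option ι) H) = 0 := by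
          change (ampHom (J := Option ι) (H := H)) (1 - g) * (ampHom (J := Option ι) (H := H)) y = 0
          rw [← map_mul, sub_mul, one_mul, hgy, sub_self, map_zero]
        rw [e0, plim_of_mem h.masa (zero_mem _), ← ha] at h9
        have h10 : (1 - g) * a = 0 := amp_inj (J := Option ι) (by
          change (ampHom (J := Option ι) (H := H)) ((1 - g) * a) = (ampHom (J := Option ι) (H := H)) 0
          rw [map_mul, map_zero]
          exact h9.symm)
        have h11 : a * (1 - g) = 0 := by rw [hA.comm haA (sub_mem (one_mem A) hg.mem), h10]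
        rw [← hη, ← mul_apply_eq_comp, h11, zero_apply]
      refine lp.ext (funext fun o => ?_)
      cases o with
      | none => simpa [hΩ, traceVec_none] using ha1
      | some i => simpa [hΩ, traceVec_some] using hzero i
    exact hz
  have hampn : ‖(amp y : Amp (Option ι) H →L[ℂ] Amp (Option ι) H)‖ ≤ 1 := by rwa [amp_norm]
  have hamps : IsSelfAdjoint (amp y : Amp (Option ι) H →L[ℂ] Amp (Option ι) H) := by
    change star _ = _
    rw [← amp_star, hys.star_eq]
  obtain ⟨p, hp, hpo, hps, z, hz, -, hzc, hW⟩ :=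
    hcore η hη hη1 h (amp y) (mem_ampVNA.2 ⟨y, hyN, rfl⟩) hamps hampn hplim η₀ hη₀
  choose f hfA hfN hfe using fun i => mem_cornerMasa.1 (hp i).1
  obtain ⟨z0, hz0N, hz0⟩ := mem_ampVNA.1 hz
  refine ⟨f, fun i => ⟨hfA i, hsnd _ _ (hfe i) (hp i).2⟩, fun i j hij => amp_inj (J := Option ι) ?_,
    amp_inj (J := Option ι) ?_, z0, ((scalarCorner_spec hgp z0).1 hz0N).1, ?_, fun l => ?_⟩
  · change (ampHom (J := Option ι) (H := H)) (f i * f j) = (ampHom (J := Option ι) (H := H)) 0
    rw [map_mul, map_zero, ampHom_apply, ampHom_apply, hfe, hfe, hpo i j hij]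
  · change (ampHom (J := Option ι) (H := H)) (∑ i, f i) = (ampHom (J := Option ι) (H := H)) 1
    rw [map_sum, map_one, ← hps]
    exact Finset.sum_congr rfl (fun i _ => hfe i)
  · rw [← amp_norm (J := Option ι) z0, hz0]; exact hzc
  · have e : ((∑ i, p i * amp y * p i) - z : Amp (Option ι) H →L[ℂ] Amp (Option ι) H)
        = amp ((∑ i, f i * y * f i) - z0) := by
      simp only [← hfe, ← hz0, ← ampHom_apply, ← map_mul, ← map_sum, ← map_sub]
    rw [e] at hW
    refine le_trans (le_of_eq ?_) ((lp.norm_apply_le_norm (p := 2) (by norm_num) _ (some l)).trans hW)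
    rw [amp_apply, traceVec_some]

/-- The core, read inside a finite-trace corner. -/
lemma exists_corner_paving {r : ℕ} (hr : 1 ≤ r) (hA : IsMASAIn M A)
    (hsing : Sing M A) {g : H →L[ℂ] H} (hg : Cut hA g ξ) {y : H →L[ℂ] H} (hy : y ∈ M)
    (hys : IsSelfAdjoint y) (hy1 : ‖y‖ ≤ 1) (hgy : g * y = y) (hyg : y * g = y)
    (hy0 : plim hA y = 0) {η₀ : ℝ} (hη₀ : 0 < η₀) :
    ∃ f : Fin r → (H →L[ℂ] H), (∀ i, f i ∈ A ∧ IsStarProjection (f i)) ∧
      (∀ i j, i ≠ j → f i * f j = 0) ∧ ∑ i, f i = 1 ∧
      ∃ z ∈ M, ‖z‖ ≤ 8 / Real.sqrt r ∧ ∀ l, ‖((∑ i, f i * y * f i) - z) (g (ξ l))‖ ≤ η₀ :=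
  exists_corner_paving_of hA hg hy hys hy1 hgy hyg hy0 hη₀ (fun _ hη hη1 h _ hw hws hw1 hw0 =>
    Singular.mix_pave h hw hws hw1 hw0 (sing_cornerMasa hA hsing hg hη hη1) hr)

/-- Projections in `M` that nearly kill the trace vectors below `g` nearly kill `g v`. -/
lemma exists_bound_below' (hA : IsMASAIn M A) {g : H →L[ℂ] H} (hg : Cut hA g ξ)
    (v : H) {ρ : ℝ} (hρ : 0 < ρ) :
    ∃ C : ℝ, 0 ≤ C ∧ ∀ (D : H →L[ℂ] H) (β : ℝ), D ∈ M → ‖D‖ ≤ 1 →
      (∀ i, ‖D (g (ξ i))‖ ≤ β) → 0 ≤ β → ‖D (g v)‖ ≤ ρ + C * β := by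
  have hgM : g ∈ M := hA.mem_M hg.mem
  have hgg := hg.proj.isIdempotentElem.eq
  -- approximate the vectors of `F` by commutant translates of the trace vectors
  let V : Submodule ℂ H := Submodule.span ℂ
    {w | ∃ m ∈ Set.centralizer (M : Set (H →L[ℂ] H)), ∃ i, w = m (g (ξ i))}
  have hgV : ∀ w, g w ∈ V.topologicalClosure := by
    have : CompleteSpace V.topologicalClosure := Submodule.topologicalClosure.completeSpace _
    have hinv : ∀ m ∈ Set.centralizer (M : Set (H →L[ℂ] H)), ∀ w ∈ V.topologicalClosure,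
        m w ∈ V.topologicalClosure := by
      intro m hm w hw
      refine Submodule.topologicalClosure_minimal
        (t := Submodule.comap (m : H →ₗ[ℂ] H) V.topologicalClosure) _ ?_
        ((Submodule.isClosed_topologicalClosure _).preimage m.continuous) hw
      rw [Submodule.span_le]
      rintro _ ⟨m', hm', i, rfl⟩
      exact Submodule.le_topologicalClosure _
        (Submodule.subset_span ⟨m * m', Set.mul_mem_centralizer hm hm', i, rfl⟩)
    have hQM : V.topologicalClosure.starProjection ∈ M := mem_vna_of_commute (fun m hm =>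
      starProjection_commute _ m (hinv m hm) (hinv _ (mem_commutant_star hm)))
    have h0 : (1 - V.topologicalClosure.starProjection) * g = 0 := by
      refine hg.faith' hA _ (mul_mem (sub_mem (one_mem M) hQM) hgM) (fun i => ?_) (by rw [mul_assoc, hgg])
      rw [mul_apply_eq_comp, sub_apply, one_apply_eq_self, sub_eq_zero]
      exact (Submodule.starProjection_eq_self_iff.2 (Submodule.le_topologicalClosure _
        (show g (ξ i) ∈ V from
          Submodule.subset_span ⟨1, Set.one_mem_centralizer, i, rfl⟩))).symm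
    intro w
    have h1 := DFunLike.congr_fun h0 w
    rw [mul_apply_eq_comp, sub_apply, one_apply_eq_self, zero_apply, sub_eq_zero] at h1
    rw [h1]
    exact V.topologicalClosure.starProjection_apply_mem _
  obtain ⟨w, hwV, hwd⟩ := Metric.mem_closure_iff.1 (hgV v) ρ hρ
  rw [dist_eq_norm] at hwd
  -- a bound for the effect of a projection below `g` on elements of `V`
  have hbd : ∀ w ∈ V, ∃ C : ℝ, 0 ≤ C ∧ ∀ (D : H →L[ℂ] H) (β : ℝ), D ∈ M →
      (∀ i, ‖D (g (ξ i))‖ ≤ β) → 0 ≤ β → ‖D w‖ ≤ C * β := by
    intro w hw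
    induction hw using Submodule.span_induction with
    | mem w hw =>
      obtain ⟨m, hm, i, rfl⟩ := hw
      refine ⟨‖m‖, norm_nonneg _, fun D β hD hβ _ => ?_⟩
      rw [← mul_apply_eq_comp D m, ← commute_of_mem_centralizer hD hm, mul_apply_eq_comp]
      exact (m.le_opNorm _).trans (mul_le_mul_of_nonneg_left (hβ i) (norm_nonneg _))
    | zero => exact ⟨0, le_rfl, fun D β _ _ _ => by simp⟩
    | add a b _ _ ha hb =>
      obtain ⟨C, hC, hCa⟩ := ha
      obtain ⟨C', hC', hCb⟩ := hb
      refine ⟨C + C', add_nonneg hC hC', fun D β hD hβ hβ0 => ?_⟩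
      rw [map_add, add_mul]
      exact (norm_add_le _ _).trans (add_le_add (hCa D β hD hβ hβ0) (hCb D β hD hβ hβ0))
    | smul k a _ ha =>
      obtain ⟨C, hC, hCa⟩ := ha
      refine ⟨‖k‖ * C, by positivity, fun D β hD hβ hβ0 => ?_⟩
      rw [map_smul, norm_smul, mul_assoc]
      exact mul_le_mul_of_nonneg_left (hCa D β hD hβ hβ0) (norm_nonneg _)
  obtain ⟨C, hC, hCw⟩ := hbd w hwV
  refine ⟨C, hC, fun D β hD hD1 hβ hβ0 => ?_⟩
  have h1 : D (g v) = D (g v - w) + D w := by rw [← map_add, sub_add_cancel]
  rw [h1]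
  refine (norm_add_le _ _).trans (add_le_add ?_ (hCw D β hD hβ hβ0))
  exact ((D.le_opNorm _).trans (mul_le_of_le_one_left (norm_nonneg _) hD1)).trans hwd.le

end Vale.Agent.P078.TypeIII.Singular
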