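import Vale.Agent.P078.TypeIII.Singular.Cut

/-!
# So-paving over singular MASAs of arbitrary von Neumann algebras
-/

namespace Vale.Agent.P078.TypeIII.Singular

open ComplexInnerProductSpace
open Filter Topology
open Vale.Agent.P078 Vale.Agent.P078.General Vale.Agent.P078.Finite Vale.Agent.P078.Semifinite

universe u

variable {H : Type u} [NormedAddCommGroup H] [InnerProductSpace ℂ H] [CompleteSpace H]
variable {M : VonNeumannAlgebra H} {A : StarSubalgebra ℂ (H →L[ℂ] H)}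

/-- **So-paving from a paving below every cut.** -/
theorem allPavable_of_cuts (hA : IsMASAIn M A) {r : ℕ} [NeZero r] {c : ℝ} {ε : ℝ}
    (hpave : ∀ {ι : Type u} {ξ : Amp ι H} {g : H →L[ℂ] H}, Cut hA g ξ → ∀ {y : H →L[ℂ] H},
      y ∈ M → IsSelfAdjoint y → ‖y‖ ≤ 1 → g * y = y → y * g = y → plim hA y = 0 →
      ∀ {η₀ : ℝ}, 0 < η₀ →
        ∃ f : Fin r → (H →L[ℂ] H), (∀ i, f i ∈ A ∧ IsStarProjection (f i)) ∧
          (∀ i j, i ≠ j → f i * f j = 0) ∧ ∑ i, f i = 1 ∧
          ∃ z ∈ M, ‖z‖ ≤ c ∧ ∀ l, ‖((∑ i, f i * y * f i) - z) (g (ξ l))‖ ≤ η₀)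
    (hε : max (2 * c) (1 / (r : ℝ)) + 1 / (r : ℝ) < ε) : AllPavable M A ε r := by
  classical
  set s := (ε - (max (2 * c) (1 / (r : ℝ)) + 1 / (r : ℝ))) / 2 with hs
  have hs0 : 0 < s := by rw [hs]; linarith
  have hr1 : max (2 * c + s) (1 / (r : ℝ)) + 1 / (r : ℝ) < ε := by
    have h1 : max (2 * c + s) (1 / (r : ℝ)) ≤ max (2 * c) (1 / (r : ℝ)) + s :=
      max_le (by linarith [le_max_left (2 * c) (1 / (r : ℝ))])
        (by linarith [le_max_right (2 * c) (1 / (r : ℝ))])
    rw [hs] at *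
    linarith
  refine allPavable_of_corner hA ?_ hr1
  set e := eProj hA with he'
  have he : IsStarProjection e := eProj_proj hA
  have heA : e ∈ A := eProj_mem hA
  intro x hx hxs F δ hδ
  obtain ⟨hxM, hxe, -⟩ := (corner_spec hA he heA x).1 hx
  rcases eq_or_ne x 0 with rfl | hx0
  · refine ⟨fun i => if i = 0 then 1 else 0, fun i => ?_, fun i j hij => ?_, by simp, 0, zero_mem A,
      IsSelfAdjoint.zero _, by simp, 1, one_mem _, IsStarProjection.one _, fun v _ => by simpa using hδ,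
      by simp⟩
    · dsimp only
      split_ifs
      · exact ⟨one_mem A, IsStarProjection.one _⟩
      · exact ⟨zero_mem A, IsStarProjection.zero _⟩
    · dsimp only
      split_ifs with h1 h2
      · exact absurd (h1.trans h2.symm) hij
      all_goals simp
  have hX : 0 < ‖x‖ := norm_pos_iff.2 hx0
  obtain ⟨g, hg', hgF⟩ := exists_cut_below hA F (half_pos hδ)
  obtain ⟨ι, ξ, hg⟩ := hg'
  have hgp := hg.proj
  have hgg := hgp.isIdempotentElem.eq
  have hgA := hg.mem
  have hgM := hA.mem_M hgA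
  have heg : e * g = g := (hA.comm heA hgA).trans hg.le
  set v0 := g * x * g with hv0
  set a1 := plim hA v0 with ha1
  have hv0M : v0 ∈ M := mul_mem (mul_mem hgM hxM) hgM
  have ha1A : a1 ∈ A := plim_mem hA hv0M
  have hv0g : v0 * g = v0 := by rw [hv0, mul_assoc, hgg]
  have hgv0 : g * v0 = v0 := by rw [hv0, ← mul_assoc, ← mul_assoc, hgg]
  have ha1g : a1 * g = a1 := by rw [ha1, ← plim_mul_right hA hgA, hv0g]
  have hga1 : g * a1 = a1 := by rw [ha1, ← plim_mul_left hA hgA, hgv0]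
  have hv0s : IsSelfAdjoint v0 := by simpa [hgp.isSelfAdjoint.star_eq] using hxs.conjugate g
  have ha1s : IsSelfAdjoint a1 := plim_isSelfAdjoint hA hv0s
  have hv0n : ‖v0‖ ≤ ‖x‖ := conj_norm_le hgp hgp x
  have ha1n : ‖a1‖ ≤ ‖x‖ := (plim_norm_le hA v0).trans hv0n
  set t : ℝ := 1 / (2 * ‖x‖) with ht
  set y : H →L[ℂ] H := (t : ℂ) • (v0 - a1) with hy
  have hyM : y ∈ M := smul_mem_vna _ (sub_mem hv0M (hA.mem_M ha1A))
  have hys : IsSelfAdjoint y := by
    rw [hy, Complex.coe_smul]; exact (IsSelfAdjoint.all t).smul (hv0s.sub ha1s)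
  have hy1 : ‖y‖ ≤ 1 := by
    rw [hy, norm_smul, Complex.norm_real, Real.norm_of_nonneg (by positivity), ht, one_div,
      inv_mul_le_iff₀ (by positivity), mul_one]
    linarith [norm_sub_le v0 a1]
  have hgy : g * y = y := by rw [hy, mul_smul_comm, mul_sub, hgv0, hga1]
  have hyg : y * g = y := by rw [hy, smul_mul_assoc, sub_mul, hv0g, ha1g]
  have hy0 : plim hA y = 0 := by
    rw [hy, plim_smul, sub_eq_add_neg, ← neg_one_smul ℂ a1, plim_add, plim_smul,
      plim_of_mem hA ha1A, ← ha1, neg_one_smul, add_neg_cancel, smul_zero]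
  choose C hC0 hCw using fun v : {v // v ∈ F} => exists_bound_below' hA hg v.1 (show 0 < δ / 4 by positivity)
  set γ : ℝ := s / 2 with hγ
  have hγ0 : 0 < γ := half_pos hs0
  set T : ℝ := (∑ v, C v) + 1 with hTdef
  have hT0 : 0 < T := by
    have : 0 ≤ ∑ v, C v := Finset.sum_nonneg (fun v _ => hC0 v)
    linarith
  set η₀ : ℝ := γ * (δ / 8 / T) with hη₀
  have hη₀0 : 0 < η₀ := by positivity
  obtain ⟨f, hf, hfo, hfs, z, hzM, hzc, hW⟩ :=
    hpave hg hyM hys hy1 hgy hyg hy0 hη₀0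
  set W := (∑ i, f i * y * f i) - z with hWdef
  have hWM : W ∈ M := sub_mem (sum_mem (fun i _ =>
    mul_mem (mul_mem (hA.mem_M (hf i).1) hyM) (hA.mem_M (hf i).1))) hzM
  obtain ⟨q', hq', hq'M, hgq', hWq', hlow⟩ := exists_small_subproj hgp hgM hWM hγ0
  have hq'g : q' * g = q' := by
    have := congrArg star hgq'
    rwa [star_mul, hgp.isSelfAdjoint.star_eq, hq'.isSelfAdjoint.star_eq] at this
  have heq' : e * q' = q' := by rw [← hgq', ← mul_assoc, heg]
  have hq'e : q' * e = q' := by rw [← hq'g, mul_assoc, hg.le]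
  have hsmall : ∀ i, ‖(g - q') (g (ξ i))‖ ≤ η₀ / γ := fun i => by
    rw [le_div_iff₀ hγ0, mul_comm]
    refine (hlow (g (ξ i))).trans ?_
    rw [proj_apply_apply hgp]
    exact hW i
  have h1e : e * (1 - e) = 0 := by rw [mul_sub, mul_one, he.isIdempotentElem.eq, sub_self]
  have h1e' : (1 - e) * e = 0 := by rw [sub_mul, one_mul, he.isIdempotentElem.eq, sub_self]
  set q := q' + (1 - e) with hqdef
  have hq : IsStarProjection q :=
    hq'.add he.one_sub (by rw [← hq'e, mul_assoc, h1e, mul_zero])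
  have hqC : q ∈ corner M A e := by
    refine (corner_spec hA he heA q).2 ⟨add_mem hq'M (sub_mem (one_mem M) (hA.mem_M heA)), ?_,
      fun a ha => ?_⟩
    · rw [hqdef, mul_add, add_mul, heq', hq'e, h1e, h1e']
    · have hea : e * a = a * e := ha e heA
      have h2 : (1 - e) * a = a * (1 - e) := by rw [sub_mul, one_mul, hea, mul_sub, mul_one]
      have l : a * (1 - e) * q' = 0 := by rw [mul_assoc, ← heq', ← mul_assoc (1 - e), h1e', zero_mul, mul_zero]
      have rr : q' * (a * (1 - e)) = 0 := by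
        rw [← hq'e, mul_assoc, ← mul_assoc e, hea, mul_assoc a e, h1e, mul_zero, mul_zero]
      rw [hqdef, mul_add, add_mul, l, rr, zero_add, zero_add, ← mul_assoc (1 - e), h2]
  set a0 := x * (1 - e) with ha0
  have ha0A : a0 ∈ A := mul_one_sub_mem hA he heA hx
  have hxe' : (1 - e) * x = x * (1 - e) := by rw [sub_mul, one_mul, hxe, mul_sub, mul_one]
  have ha0s : IsSelfAdjoint a0 := by
    change star a0 = a0
    rw [ha0, star_mul, he.one_sub.isSelfAdjoint.star_eq, hxs.star_eq, hxe']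
  have hea1 : e * a1 = a1 := by rw [← hga1, ← mul_assoc, heg]
  have ha1e : a1 * e = a1 := by rw [← ha1g, mul_assoc, hg.le]
  refine ⟨f, hf, hfo, hfs, a1 + a0, add_mem ha1A ha0A, ha1s.add ha0s, ?_, q, hqC, hq,
    fun v hv => ?_, ?_⟩
  · refine ContinuousLinearMap.opNorm_le_bound _ hX.le (fun u => ?_)
    refine (sq_le_sq₀ (norm_nonneg _) (by positivity)).1 ?_
    have horth : ⟪a1 u, a0 u⟫ = 0 := by
      conv_lhs => rw [← hea1, mul_apply_eq_comp, sa_inner he.isSelfAdjoint, ← mul_apply_eq_comp]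
      rw [ha0, ← hxe', ← mul_assoc, h1e, zero_mul, zero_apply, inner_zero_right]
    have e1 : ‖a1 u‖ ≤ ‖x‖ * ‖e u‖ := by
      conv_lhs => rw [← ha1e, mul_apply_eq_comp]
      exact (a1.le_opNorm _).trans (mul_le_mul_of_nonneg_right ha1n (norm_nonneg _))
    have e2 : ‖a0 u‖ ≤ ‖x‖ * ‖(1 - e) u‖ := by
      rw [ha0, mul_apply_eq_comp]
      exact x.le_opNorm _
    have e3 : ‖u‖ ^ 2 = ‖e u‖ ^ 2 + ‖(1 - e) u‖ ^ 2 := by
      have : ⟪e u, (1 - e) u⟫ = 0 := by
        rw [sa_inner he.isSelfAdjoint, ← mul_apply_eq_comp, h1e, zero_apply, inner_zero_right]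
      calc ‖u‖ ^ 2 = ‖e u + (1 - e) u‖ ^ 2 := by
            rw [← add_apply, add_sub_cancel, one_apply_eq_self]
        _ = _ := by rw [norm_add_sq (𝕜 := ℂ), this]; simp
    rw [add_apply, norm_add_sq (𝕜 := ℂ), horth, mul_pow, e3]
    simp only [map_zero, mul_zero, add_zero, mul_add, ← mul_pow]
    exact add_le_add (pow_le_pow_left₀ (norm_nonneg _) e1 2) (pow_le_pow_left₀ (norm_nonneg _) e2 2)
  · have e1 : (1 - q) v = (e - g) v + (g - q') v := by
      simp only [hqdef, sub_apply, add_apply, one_apply_eq_self]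
      abel
    have e2 : (g - q') v = (g - q') (g v) := by
      rw [← mul_apply_eq_comp, sub_mul, hgg, hq'g]
    have hproj : IsStarProjection (g - q') := hq'.sub_of_mul_eq_left hgp hq'g
    have e4 : C ⟨v, hv⟩ ≤ T := by
      have := Finset.single_le_sum (f := C) (fun v _ => hC0 v) (Finset.mem_univ ⟨v, hv⟩)
      linarith
    have e3 := hCw ⟨v, hv⟩ (g - q') (η₀ / γ) (sub_mem hgM hq'M) hproj.norm_le hsmall (by positivity)
    have e5 : C ⟨v, hv⟩ * (η₀ / γ) ≤ δ / 8 := by
      refine (mul_le_mul_of_nonneg_right e4 (by positivity)).trans (le_of_eq ?_)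
      rw [hη₀]
      field_simp
    rw [e1, e2]
    refine (norm_add_le _ _).trans_lt ?_
    linarith [hgF v hv]
  · -- the norm estimate
    have hW' : W = (∑ i, f i * y * f i) - z := hWdef
    refine (norm_block_le hA heA he hgA hgp hg.le hxe (f := f) hf hfs hq' hgq' hq'g heq' hq'e hqdef
      ha1A ha1g hga1 hy (rfl : a0 = x * (1 - e)) ha0A hX hW' hWq' hzc).trans (le_of_eq ?_)
    rw [hγ]; ring

/-- **Singular MASAs of arbitrary von Neumann algebras.** -/
theorem allPavable_of_sing (hA : IsMASAIn M A) (hsing : Sing M A) {r : ℕ} (hr : 1 ≤ r) {ε : ℝ}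
    (hε : max (2 * (8 / Real.sqrt r)) (1 / (r : ℝ)) + 1 / (r : ℝ) < ε) : AllPavable M A ε r :=
  have : NeZero r := ⟨by omega⟩
  allPavable_of_cuts hA (c := 8 / Real.sqrt r)
    (fun hg _ hy hys hy1 hgy hyg hy0 _ hη₀ =>
      exists_corner_paving hr hA hsing hg hy hys hy1 hgy hyg hy0 hη₀) hε

end Vale.Agent.P078.TypeIII.Singular
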