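import Vale.Agent.P078.General.Corner
import Vale.Agent.P078.Semifinite.Amplify
import Vale.Agent.P078.Mix.Order

/-!
# Normal positive functionals are vector functionals in the amplification

A positive functional on `M` dominated by a vector is a vector functional (commutant
Radon–Nikodym). A vector functional of small norm has small representing vectors (polar
decomposition). Hence a positive norm limit of finite sums of vector functionals is a vector
functional in a countable amplification.
-/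

set_option linter.unusedSectionVars false

namespace Vale.Agent.P078.TypeIII.Singular

open ComplexInnerProductSpace
open Filter Topology
open Vale.Agent.P078 Vale.Agent.P078.General Vale.Agent.P078.Finite Vale.Agent.P078.Semifinite
open scoped CStarAlgebra

universe u

variable {K : Type u} [NormedAddCommGroup K] [InnerProductSpace ℂ K] [CompleteSpace K]
variable {N : VonNeumannAlgebra K}

/-- Positivity of a functional on `N`. -/
def PosOn (N : VonNeumannAlgebra K) (G : (K →L[ℂ] K) →ₗ[ℂ] ℂ) : Prop :=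
  ∀ y ∈ N, 0 ≤ (G (star y * y)).re ∧ (G (star y * y)).im = 0

lemma PosOn.conj {G : (K →L[ℂ] K) →ₗ[ℂ] ℂ} (hG : PosOn N G) {y z : K →L[ℂ] K} (hy : y ∈ N)
    (hz : z ∈ N) : G (star z * y) = starRingEnd ℂ (G (star y * z)) := by
  have h1 := (hG _ (add_mem hy hz)).2
  have h2 := (hG _ (add_mem hy (smul_mem_vna Complex.I hz))).2
  have hy' := (hG y hy).2
  have hz' := (hG z hz).2
  simp only [star_add, star_smul, add_mul, mul_add, map_add, Complex.add_im, hy', hz',
    smul_mul_assoc, mul_smul_comm, map_smul, smul_smul, smul_eq_mul, RCLike.star_def,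
    Complex.conj_I, Complex.mul_im, Complex.mul_re, Complex.neg_re, Complex.neg_im,
    Complex.I_re, Complex.I_im] at h1 h2
  apply Complex.ext
  · simp only [Complex.conj_re]
    linarith
  · simp only [Complex.conj_im]
    linarith

lemma PosOn.cauchy_schwarz {G : (K →L[ℂ] K) →ₗ[ℂ] ℂ} (hG : PosOn N G) {y z : K →L[ℂ] K}
    (hy : y ∈ N) (hz : z ∈ N) :
    ‖G (star y * z)‖ ^ 2 ≤ (G (star y * y)).re * (G (star z * z)).re := by
  set w := G (star y * z) with hw
  set a := (G (star y * y)).re
  set b := (G (star z * z)).re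
  have hq : ∀ t : ℂ, 0 ≤ a + 2 * (t * w).re + ‖t‖ ^ 2 * b := by
    intro t
    have h1 := (hG _ (add_mem hy (smul_mem_vna t hz))).1
    simp only [star_add, star_smul, add_mul, mul_add, map_add, Complex.add_re, smul_mul_assoc,
      mul_smul_comm, map_smul, smul_smul, smul_eq_mul, RCLike.star_def] at h1
    rw [hG.conj hy hz, ← hw, ← map_mul, Complex.conj_re, ← mul_assoc t, Complex.mul_conj',
      ← Complex.ofReal_pow, Complex.re_ofReal_mul] at h1
    linarith
  have ha : 0 ≤ a := (hG y hy).1
  have hb : 0 ≤ b := (hG z hz).1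
  have key : ∀ s : ℝ, 0 ≤ a - 2 * s * ‖w‖ ^ 2 + s ^ 2 * ‖w‖ ^ 2 * b := by
    intro s
    have h1 := hq (-(s : ℂ) * starRingEnd ℂ w)
    have e1 : (-(s : ℂ) * starRingEnd ℂ w * w).re = -s * ‖w‖ ^ 2 := by
      rw [mul_assoc, Complex.conj_mul', neg_mul, Complex.neg_re, ← Complex.ofReal_pow,
        Complex.re_ofReal_mul, Complex.ofReal_re, neg_mul]
    rw [e1, norm_mul, norm_neg, Complex.norm_real, RCLike.norm_conj, mul_pow, Real.norm_eq_abs,
      sq_abs] at h1
    linarith
  rcases hb.eq_or_lt with h0 | h0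
  · rcases eq_or_ne w 0 with hw0 | hw0
    · simp [hw0, ← h0]
    · have hn : 0 < ‖w‖ ^ 2 := by positivity
      have := key ((a + 1) / (2 * ‖w‖ ^ 2))
      rw [← h0, mul_zero, add_zero] at this
      have e : 2 * ((a + 1) / (2 * ‖w‖ ^ 2)) * ‖w‖ ^ 2 = a + 1 := by field_simp
      linarith
  · have := key (1 / b)
    have e : a - 2 * (1 / b) * ‖w‖ ^ 2 + (1 / b) ^ 2 * ‖w‖ ^ 2 * b = (a * b - ‖w‖ ^ 2) / b := by
      field_simp; ring
    rw [e, le_div_iff₀ h0, zero_mul] at this
    linarith

/-- The orbit map of a vector. -/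
noncomputable def orbit (N : VonNeumannAlgebra K) (V : K) : vnaSubmodule N →ₗ[ℂ] K where
  toFun y := (y : K →L[ℂ] K) V
  map_add' x y := by simp
  map_smul' c x := by simp

/-- **Radon–Nikodym in the commutant.** A positive functional dominated by a vector is given by
a vector. -/
theorem exists_vector_of_dominated {G : (K →L[ℂ] K) →ₗ[ℂ] ℂ} (hG : PosOn N G) (V : K)
    (hdom : ∀ y ∈ N, (G (star y * y)).re ≤ ‖y V‖ ^ 2) :
    ∃ U : K, ∀ y ∈ N, G y = ⟪U, y U⟫ := by
  set S : Submodule ℂ K := (LinearMap.range (orbit N V)).topologicalClosure with hS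
  have : CompleteSpace S := Submodule.topologicalClosure.completeSpace _
  have hmem : ∀ y ∈ N, y V ∈ S := fun y hy =>
    Submodule.le_topologicalClosure _ ⟨⟨y, hy⟩, rfl⟩
  -- equalities of continuous functions extend from the orbit to `S`
  have hext : ∀ (p : K → Prop), IsClosed {s | p s} → (∀ y ∈ N, p (y V)) → ∀ s ∈ S, p s := by
    intro p hp h0 s hs
    refine closure_minimal (t := {s | p s}) ?_ hp hs
    rintro _ ⟨⟨y, hy⟩, rfl⟩
    exact h0 y hy
  have huniq : ∀ v ∈ S, ∀ v' ∈ S, (∀ z ∈ N, ⟪v, z V⟫ = ⟪v', z V⟫) → v = v' := by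
    intro v hv v' hv' h0
    refine sub_eq_zero.1 (inner_self_eq_zero (𝕜 := ℂ).1 ?_)
    refine hext (fun s => ⟪v - v', s⟫ = 0)
      (isClosed_eq (continuous_const.inner continuous_id) continuous_const) (fun z hz => ?_) _
      (sub_mem hv hv')
    rw [inner_sub_left, h0 z hz, sub_self]
  have hex : ∀ y : vnaSubmodule N, ∃ w : S, (∀ z ∈ N, ⟪(w : K), z V⟫ = G (star (y : K →L[ℂ] K) * z))
      ∧ ‖(w : K)‖ ≤ ‖orbit N V y‖ := by
    rintro ⟨y, hy⟩
    have hcs : ∀ z ∈ N, ‖G (star y * z)‖ ≤ ‖y V‖ * ‖z V‖ := fun z hz => by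
      refine (sq_le_sq₀ (norm_nonneg _) (by positivity)).1 ?_
      rw [mul_pow]
      exact (hG.cauchy_schwarz hy hz).trans
        (mul_le_mul (hdom y hy) (hdom z hz) (hG z hz).1 (sq_nonneg _))
    obtain ⟨w, hw⟩ := exists_vectors_of_bound (M := N) (G.comp (LinearMap.mulLeft ℂ (star y)))
      (fun _ : Fin 1 => V) (C := ‖y V‖ ^ 2) (sq_nonneg _) (fun z hz => by
        simp only [LinearMap.comp_apply, LinearMap.mulLeft_apply, Finset.univ_unique,
          Finset.sum_singleton, ← mul_pow]
        exact pow_le_pow_left₀ (norm_nonneg _) (hcs z hz) 2)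
    have hin : ∀ z ∈ N, ⟪S.starProjection (w 0), z V⟫ = G (star y * z) := fun z hz => by
      rw [Submodule.inner_starProjection_left_eq_right,
        Submodule.starProjection_eq_self_iff.2 (hmem z hz)]
      have := hw z hz
      simpa using this.symm
    refine ⟨⟨_, S.starProjection_apply_mem (w 0)⟩, hin, ?_⟩
    set P := S.starProjection (w 0) with hP
    have h1 : ‖⟪P, P⟫‖ ≤ ‖y V‖ * ‖P‖ := by
      refine hext (fun s => ‖⟪P, s⟫‖ ≤ ‖y V‖ * ‖s‖)
        (isClosed_le (continuous_const.inner continuous_id).norm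
          (continuous_const.mul continuous_norm)) (fun z hz => ?_) _
        (S.starProjection_apply_mem _)
      rw [hin z hz]
      exact hcs z hz
    rw [inner_self_eq_norm_sq_to_K, norm_pow, RCLike.norm_ofReal, abs_norm] at h1
    rcases eq_or_lt_of_le (norm_nonneg P) with h0 | h0
    · exact h0.symm.le.trans (norm_nonneg _)
    · rw [sq] at h1
      exact le_of_mul_le_mul_right h1 h0
  choose Φ0 hΦ hΦn using hex
  let Φ : vnaSubmodule N →ₗ[ℂ] S :=
    { toFun := Φ0
      map_add' := fun x y => Subtype.ext (huniq _ (Φ0 (x + y)).2 _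
        (add_mem (Φ0 x).2 (Φ0 y).2) (fun z hz => by
          simp only [Submodule.coe_add]
          rw [hΦ _ z hz, inner_add_left, hΦ _ z hz, hΦ _ z hz]
          simp [add_mul]))
      map_smul' := fun c x => Subtype.ext (huniq _ (Φ0 (c • x)).2 _
        (S.smul_mem c (Φ0 x).2) (fun z hz => by
          simp only [Submodule.coe_smul, RingHom.id_apply]
          rw [hΦ _ z hz, inner_smul_left, hΦ _ z hz]
          simp [smul_mul_assoc])) }
  let e : vnaSubmodule N →ₗ[ℂ] S := (orbit N V).codRestrict S (fun y => hmem _ y.2)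
  have hdense : DenseRange e := by
    intro s
    rw [Metric.mem_closure_iff]
    intro η hη
    obtain ⟨_, ⟨y, rfl⟩, hd⟩ := Metric.mem_closure_iff.1 s.2 η hη
    exact ⟨e y, ⟨y, rfl⟩, hd⟩
  have hbd : ∀ y, ‖Φ y‖ ≤ 1 * ‖e y‖ := fun y => by
    rw [one_mul]; exact hΦn y
  set T : K →L[ℂ] K :=
    S.subtypeL.comp ((Φ.extendOfNorm e).comp S.orthogonalProjectionOnto) with hT
  have hTS : ∀ v, T v ∈ S := fun v => (Φ.extendOfNorm e (S.orthogonalProjectionOnto v)).2
  have hTP : ∀ v, T (S.starProjection v) = T v := fun v => by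
    have : S.orthogonalProjectionOnto (S.starProjection v) = S.orthogonalProjectionOnto v :=
      Subtype.ext (Submodule.starProjection_eq_self_iff.2 (S.starProjection_apply_mem v))
    simp [hT, this]
  have hTy : ∀ y (hy : y ∈ N), T (y V) = (Φ0 ⟨y, hy⟩ : K) := fun y hy => by
    have h1 : S.orthogonalProjectionOnto (y V) = e ⟨y, hy⟩ :=
      Subtype.ext (Submodule.starProjection_eq_self_iff.2 (hmem y hy))
    simp only [hT, ContinuousLinearMap.comp_apply, h1,
      LinearMap.extendOfNorm_eq hdense ⟨1, hbd⟩]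
    rfl
  have hTG : ∀ y ∈ N, ∀ z ∈ N, ⟪T (y V), z V⟫ = G (star y * z) := fun y hy z hz => by
    rw [hTy y hy]; exact hΦ _ z hz
  have hinv : ∀ x ∈ N, ∀ s ∈ S, x s ∈ S := fun x hx =>
    hext (fun s => x s ∈ S)
      ((Submodule.isClosed_topologicalClosure _).preimage x.continuous)
      (fun y hy => hmem (x * y) (mul_mem hx hy))
  have hcomm : ∀ x ∈ N, x * T = T * x := by
    intro x hx
    have hPx := starProjection_commute S x (hinv x hx) (hinv _ (star_mem hx))
    have h1 : ∀ s ∈ S, x (T s) = T (x s) :=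
      hext (fun s => x (T s) = T (x s))
        (isClosed_eq (x.continuous.comp T.continuous) (T.continuous.comp x.continuous))
        (fun y hy => by
          refine huniq _ (hinv x hx _ (hTS _)) _ (hTS _) (fun z hz => ?_)
          rw [show x (y V) = (x * y) V from rfl, hTG _ (mul_mem hx hy) z hz]
          have := hTG y hy (star x * z) (mul_mem (star_mem hx) hz)
          rw [ContinuousLinearMap.star_eq_adjoint, mul_apply_eq_comp,
            ContinuousLinearMap.adjoint_inner_right] at this
          rw [this, star_mul, mul_assoc]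
          simp only [ContinuousLinearMap.star_eq_adjoint])
    refine ContinuousLinearMap.ext (fun v => ?_)
    change x (T v) = T (x v)
    rw [← hTP v, h1 _ (S.starProjection_apply_mem v), ← hTP (x v)]
    exact congrArg T (DFunLike.congr_fun hPx v)
  have hquad : ∀ v, 0 ≤ (⟪T v, v⟫).re ∧ (⟪T v, v⟫).im = 0 := by
    intro v
    have h1 : ∀ s ∈ S, 0 ≤ (⟪T s, s⟫).re ∧ (⟪T s, s⟫).im = 0 :=
      hext (fun s => 0 ≤ (⟪T s, s⟫).re ∧ (⟪T s, s⟫).im = 0)
        ((isClosed_le continuous_const
            (Complex.continuous_re.comp (T.continuous.inner continuous_id))).inter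
          (isClosed_eq (Complex.continuous_im.comp (T.continuous.inner continuous_id))
            continuous_const))
        (fun y hy => by rw [hTG y hy y hy]; exact hG y hy)
    have e1 : ⟪T v, v⟫ = ⟪T (S.starProjection v), S.starProjection v⟫ := by
      rw [← Submodule.inner_starProjection_left_eq_right S, hTP,
        Submodule.starProjection_eq_self_iff.2 (hTS v)]
    rw [e1]
    exact h1 _ (S.starProjection_apply_mem v)
  have hTs : IsSelfAdjoint T := by
    rw [ContinuousLinearMap.isSelfAdjoint_iff_isSymmetric,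
      LinearMap.isSymmetric_iff_inner_map_self_real]
    intro v
    exact Complex.conj_eq_iff_im.2 (hquad v).2
  have hTpos : Pos T := ⟨hTs, fun v => by
    rw [← RCLike.re_to_complex, inner_re_symm]; exact (hquad v).1⟩
  obtain ⟨s, hs, hss, hsd⟩ := hTpos.exists_sqrt
  refine ⟨s V, fun y hy => ?_⟩
  have hsy : s * y = y * s := by
    rw [hsd]
    exact (Commute.cfc_real (hcomm y hy).symm Real.sqrt).eq
  have e1 : s (y (s V)) = y (T V) := by
    rw [← hss]
    exact DFunLike.congr_fun hsy (s V)
  rw [sa_inner hs, e1]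
  have h2 : y (T V) = T (y V) := DFunLike.congr_fun (hcomm y hy) V
  rw [h2, ← sa_inner hTs]
  have h3 := hTG 1 (one_mem N) y hy
  simpa using h3.symm

/-- **Polar decomposition.** A vector functional of norm at most `η` is given by vectors of
squared norm at most `η`. -/
theorem exists_small_vectors (V W : K) {η : ℝ} (hη : 0 ≤ η)
    (hb : ∀ x ∈ N, ‖⟪W, x V⟫‖ ≤ η * ‖x‖) :
    ∃ U U' : K, ‖U‖ ^ 2 ≤ η ∧ ‖U'‖ ≤ ‖U‖ ∧ ∀ x ∈ N, ⟪W, x V⟫ = ⟪U', x U⟫ := by
  set F : (K →L[ℂ] K) →ₗ[ℂ] ℂ :=
    { toFun := fun x => ⟪W, x V⟫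
      map_add' := fun x y => by simp [inner_add_right]
      map_smul' := fun c x => by simp [inner_smul_right] } with hF
  set S : Set ℝ := {s | ∃ x ∈ N, ‖x‖ ≤ 1 ∧ (F x).re = s} with hS
  have hbd : BddAbove S := ⟨η, by
    rintro s ⟨x, hx, hx1, rfl⟩
    exact (Complex.re_le_norm _).trans ((hb x hx).trans (mul_le_of_le_one_right hη hx1))⟩
  have h0S : (0 : ℝ) ∈ S := ⟨0, zero_mem N, by simp, by simp⟩
  set σ := sSup S with hσ
  have hσ0 : 0 ≤ σ := le_csSup hbd h0S
  have hση : σ ≤ η := csSup_le ⟨0, h0S⟩ (by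
    rintro s ⟨x, hx, hx1, rfl⟩
    exact (Complex.re_le_norm _).trans ((hb x hx).trans (mul_le_of_le_one_right hη hx1)))
  have hFle : ∀ x ∈ N, ‖F x‖ ≤ σ * ‖x‖ := by
    intro x hx
    rcases eq_or_ne x 0 with rfl | hx0
    · simp
    rcases eq_or_ne (F x) 0 with h0 | h0
    · rw [h0, norm_zero]; positivity
    have hn : 0 < ‖x‖ := norm_pos_iff.2 hx0
    set c : ℂ := starRingEnd ℂ (F x) / (‖F x‖ * ‖x‖ : ℝ) with hc
    have h1 : (F (c • x)).re ≤ σ := by
      refine le_csSup hbd ⟨c • x, smul_mem_vna c hx, ?_, rfl⟩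
      rw [norm_smul, hc, norm_div, RCLike.norm_conj, Complex.norm_real,
        Real.norm_of_nonneg (by positivity)]
      refine le_of_eq ?_
      field_simp
    rw [map_smul, smul_eq_mul, hc, div_mul_eq_mul_div, Complex.conj_mul', ← Complex.ofReal_pow,
      ← Complex.ofReal_div, Complex.ofReal_re, div_le_iff₀ (by positivity)] at h1
    have hw : 0 < ‖F x‖ := norm_pos_iff.2 h0
    nlinarith
  -- a maximiser
  have hseq : ∀ n : ℕ, ∃ x, x ∈ N ∧ ‖x‖ ≤ 1 ∧ σ - 1 / ((n : ℝ) + 1) < (F x).re := fun n => by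
    obtain ⟨_, ⟨x, hx, hx1, rfl⟩, hlt⟩ := exists_lt_of_lt_csSup ⟨0, h0S⟩
      (show σ - 1 / ((n : ℝ) + 1) < sSup S by
        have : (0 : ℝ) < 1 / ((n : ℝ) + 1) := by positivity
        linarith)
    exact ⟨x, hx, hx1, hlt⟩
  choose x hxN hx1 hxF using hseq
  obtain ⟨u, hu⟩ := exists_weak_limit x hx1
  have huN : u ∈ N := weak_limit_mem hxN hu
  have hu1 : ‖u‖ ≤ 1 := by
    refine ContinuousLinearMap.opNorm_le_of_re_inner_le zero_le_one (fun v w hv hw => ?_)
    refine (Complex.re_le_norm _).trans (le_of_tendsto' (hu v w).norm (fun n => ?_))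
    refine (norm_inner_le_norm _ _).trans ?_
    rw [hw, mul_one]
    simpa [hv] using norm_sum_apply_le (hx1 n) v
  have huF : σ ≤ (F u).re := by
    have h1 := (Complex.continuous_re.tendsto _).comp (hu V W)
    rw [← RCLike.re_to_complex, inner_re_symm, RCLike.re_to_complex] at h1
    refine le_of_tendsto_of_tendsto (f := fun n : ℕ => σ - 1 / ((n : ℝ) + 1)) ?_ h1
      (Filter.Eventually.of_forall (fun n => ?_))
    · simpa using ((tendsto_one_div_add_atTop_nhds_zero_nat (𝕜 := ℝ)).const_sub σ).mono_left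
        Nat.hyperfilter_le_atTop
    · simp only [Function.comp_apply]
      rw [← RCLike.re_to_complex, inner_re_symm]
      exact (hxF n).le
  have hFu : F u = (σ : ℂ) := by
    have h1 : ‖F u‖ ≤ σ := (hFle u huN).trans (mul_le_of_le_one_right hσ0 hu1)
    have h2 := Complex.re_le_norm (F u)
    have hre : (F u).re = σ := le_antisymm (h2.trans h1) huF
    have hsq : (F u).re * (F u).re + (F u).im * (F u).im ≤ σ * σ := by
      rw [← Complex.normSq_apply, Complex.normSq_eq_norm_sq, sq]
      exact mul_self_le_mul_self (norm_nonneg _) h1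
    rw [hre] at hsq
    refine Complex.ext (by simpa using hre) ?_
    simp only [Complex.ofReal_im]
    exact mul_self_eq_zero.1 (le_antisymm (by linarith) (mul_self_nonneg _))
  -- the defect
  have huu : Pos (1 - u * star u) := by
    refine ⟨(IsSelfAdjoint.one _).sub (IsSelfAdjoint.mul_star_self u), fun v => ?_⟩
    have e1 : ⟪v, (u * star u) v⟫ = ⟪star u v, star u v⟫ := by
      rw [ContinuousLinearMap.star_eq_adjoint, ContinuousLinearMap.adjoint_inner_left]
      rfl
    rw [sub_apply, inner_sub_right, one_apply_eq_self, Complex.sub_re, sub_nonneg, e1,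
      re_inner_self, re_inner_self]
    refine pow_le_pow_left₀ (norm_nonneg _) (((star u).le_opNorm v).trans ?_) 2
    rw [norm_star]
    exact mul_le_of_le_one_left (norm_nonneg _) hu1
  obtain ⟨d, hds, hdd, hdc⟩ := huu.exists_sqrt
  have hdN : d ∈ N := hdc ▸ cfc_mem_M (sub_mem (one_mem N) (mul_mem huN (star_mem huN))) _
  have hrow : ∀ v w : K, ∀ z : K →L[ℂ] K, ‖z‖ ≤ 1 → ∀ t : ℝ,
      (⟪w, (u + (t : ℂ) • (d * z)) v⟫).re ≤ Real.sqrt (1 + t ^ 2) * ‖w‖ * ‖v‖ := by
    intro v w z hz t
    have e0 : ⟪star u w, star u w⟫ + ⟪d w, d w⟫ = ⟪w, w⟫ := by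
      rw [sa_inner hds w (d w), ← mul_apply_eq_comp d d, hdd, sub_apply, one_apply_eq_self,
        inner_sub_right, ContinuousLinearMap.star_eq_adjoint,
        ContinuousLinearMap.adjoint_inner_left, mul_apply_eq_comp]
      abel
    have e : ‖star u w‖ ^ 2 + ‖d w‖ ^ 2 = ‖w‖ ^ 2 := by
      have := congrArg Complex.re e0
      rwa [Complex.add_re, re_inner_self, re_inner_self, re_inner_self] at this
    rw [add_apply, smul_apply, inner_add_right, inner_smul_right, Complex.add_re,
      Complex.re_ofReal_mul, mul_apply_eq_comp, ← sa_inner hds,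
      ← ContinuousLinearMap.adjoint_inner_left u, ← ContinuousLinearMap.star_eq_adjoint]
    have a1 := (Complex.re_le_norm ⟪star u w, v⟫).trans (norm_inner_le_norm _ _)
    have a2 : t * (⟪d w, z v⟫).re ≤ |t| * (‖d w‖ * ‖v‖) := by
      refine (le_abs_self _).trans ?_
      rw [abs_mul]
      refine mul_le_mul_of_nonneg_left (((Complex.abs_re_le_norm _).trans
        (norm_inner_le_norm _ _)).trans (mul_le_mul_of_nonneg_left ?_ (norm_nonneg _)))
        (abs_nonneg _)
      exact (z.le_opNorm v).trans (mul_le_of_le_one_left (norm_nonneg _) hz)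
    have a3 : ‖star u w‖ + |t| * ‖d w‖ ≤ Real.sqrt (1 + t ^ 2) * ‖w‖ := by
      rw [← Real.sqrt_sq (norm_nonneg w), ← Real.sqrt_mul (by positivity)]
      refine Real.le_sqrt_of_sq_le ?_
      nlinarith [sq_nonneg (|t| * ‖star u w‖ - ‖d w‖), sq_abs t]
    nlinarith [norm_nonneg v]
  have hdz : ∀ z ∈ N, F (d * z) = 0 := by
    have hone : ∀ z ∈ N, ‖z‖ ≤ 1 → (F (d * z)).re ≤ 0 := by
      intro z hz hz1
      by_contra hpos
      push Not at hpos
      set a := (F (d * z)).re with ha
      have hb' : ∀ t : ℝ, 0 < t → σ + t * a ≤ σ * Real.sqrt (1 + t ^ 2) := by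
        intro t ht
        have hmem : u + (t : ℂ) • (d * z) ∈ N := add_mem huN (smul_mem_vna _ (mul_mem hdN hz))
        have hn : ‖u + (t : ℂ) • (d * z)‖ ≤ Real.sqrt (1 + t ^ 2) :=
          ContinuousLinearMap.opNorm_le_of_re_inner_le (Real.sqrt_nonneg _) (fun v w hv hw => by
            rw [inner_re_symm]
            refine (hrow v w z hz1 t).trans (le_of_eq ?_)
            rw [hv, hw, mul_one, mul_one])
        have h1 := (Complex.re_le_norm _).trans
          ((hFle _ hmem).trans (mul_le_mul_of_nonneg_left hn hσ0))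
        rw [map_add, map_smul, smul_eq_mul, Complex.add_re, Complex.re_ofReal_mul, hFu,
          Complex.ofReal_re] at h1
        exact h1
      have h2 := hb' (a / (σ + 1)) (by positivity)
      have h3 : Real.sqrt (1 + (a / (σ + 1)) ^ 2) ≤ 1 + (a / (σ + 1)) ^ 2 / 2 := by
        rw [Real.sqrt_le_left (by positivity)]
        nlinarith [sq_nonneg ((a / (σ + 1)) ^ 2)]
      have h4 := mul_le_mul_of_nonneg_left h3 hσ0
      have h5 : a / (σ + 1) * a = (a / (σ + 1)) ^ 2 * (σ + 1) := by field_simp
      nlinarith [pow_pos (div_pos hpos (show 0 < σ + 1 by linarith)) 2]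
    intro z hz
    by_contra h0
    have hz0 : z ≠ 0 := fun e => h0 (by rw [e, mul_zero, map_zero])
    have hw : 0 < ‖F (d * z)‖ := norm_pos_iff.2 h0
    have hn : 0 < ‖z‖ := norm_pos_iff.2 hz0
    set c : ℂ := starRingEnd ℂ (F (d * z)) / (‖F (d * z)‖ * ‖z‖ : ℝ) with hc
    have h1 := hone (c • z) (smul_mem_vna c hz) (by
      rw [norm_smul, hc, norm_div, RCLike.norm_conj, Complex.norm_real,
        Real.norm_of_nonneg (by positivity)]
      refine le_of_eq ?_
      field_simp)
    rw [mul_smul_comm, map_smul, smul_eq_mul, hc, div_mul_eq_mul_div, Complex.conj_mul',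
      ← Complex.ofReal_pow, ← Complex.ofReal_div, Complex.ofReal_re,
      div_le_iff₀ (by positivity), zero_mul] at h1
    nlinarith
  -- the positive functional `x ↦ F (u x)`
  set G : (K →L[ℂ] K) →ₗ[ℂ] ℂ := F.comp (LinearMap.mulLeft ℂ u) with hG
  have hGle : ∀ x ∈ N, ‖G x‖ ≤ σ * ‖x‖ := fun x hx => by
    refine (hFle _ (mul_mem huN hx)).trans (mul_le_mul_of_nonneg_left ?_ hσ0)
    exact (norm_mul_le _ _).trans (mul_le_of_le_one_left (norm_nonneg _) hu1)
  have hG1 : G 1 = (σ : ℂ) := by simp [hG, hFu]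
  have hGpos : PosOn N G := by
    intro y hy
    set h := star y * y with hh
    have hhN : h ∈ N := mul_mem (star_mem hy) hy
    have hhs : IsSelfAdjoint h := IsSelfAdjoint.star_mul_self y
    refine ⟨?_, ?_⟩
    · rcases eq_or_ne h 0 with h0 | h0
      · simp [h0]
      have hn : 0 < ‖h‖ := norm_pos_iff.2 h0
      set k := ((‖h‖⁻¹ : ℝ) : ℂ) • h with hk
      have h1 : ‖1 - k‖ ≤ 1 := by
        have hks : IsSelfAdjoint (1 - k) := by
          rw [hk, Complex.coe_smul]
          exact (IsSelfAdjoint.one _).sub (IsSelfAdjoint.smul (IsSelfAdjoint.all _) hhs)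
        have hp : ∀ v : K, 0 ≤ (⟪h v, v⟫).re ∧ (⟪h v, v⟫).re ≤ ‖h‖ * ‖v‖ ^ 2 := fun v => by
          refine ⟨?_, (Complex.re_le_norm _).trans ((norm_inner_le_norm _ _).trans ?_)⟩
          · change 0 ≤ (⟪star y (y v), v⟫).re
            rw [ContinuousLinearMap.star_eq_adjoint, ContinuousLinearMap.adjoint_inner_left,
              ← RCLike.re_to_complex, ← norm_sq_eq_re_inner (𝕜 := ℂ)]
            positivity
          · rw [sq, ← mul_assoc]
            exact mul_le_mul_of_nonneg_right (h.le_opNorm v) (norm_nonneg _)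
        rw [ContinuousLinearMap.norm_eq_iSup_rayleighQuotient _ hks.isSymmetric]
        refine ciSup_le (fun v => ?_)
        rcases eq_or_ne v 0 with rfl | hv
        · simp [ContinuousLinearMap.rayleighQuotient, ContinuousLinearMap.reApplyInnerSelf]
        rw [ContinuousLinearMap.rayleighQuotient, ContinuousLinearMap.reApplyInnerSelf_apply,
          abs_div, abs_of_nonneg (sq_nonneg ‖v‖), div_le_iff₀ (by positivity), one_mul,
          RCLike.re_to_complex, sub_apply, one_apply_eq_self, inner_sub_left, Complex.sub_re,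
          hk, smul_apply, inner_smul_left, Complex.conj_ofReal, Complex.re_ofReal_mul,
          re_inner_self]
        obtain ⟨h2, h3⟩ := hp v
        have h4 : ‖h‖⁻¹ * (⟪h v, v⟫).re ≤ ‖v‖ ^ 2 := by
          rw [inv_mul_le_iff₀ hn]; exact h3
        have h5 : 0 ≤ ‖h‖⁻¹ * (⟪h v, v⟫).re := by positivity
        rw [abs_of_nonneg (by linarith)]
        linarith
      have h2 := (Complex.re_le_norm _).trans ((hGle _ (sub_mem (one_mem N)
        (smul_mem_vna _ hhN : k ∈ N))).trans (mul_le_of_le_one_right hσ0 h1))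
      rw [map_sub, hG1, map_smul, smul_eq_mul, Complex.sub_re, Complex.ofReal_re,
        Complex.re_ofReal_mul] at h2
      by_contra hneg
      push Not at hneg
      have : ‖h‖⁻¹ * (G h).re < 0 := mul_neg_of_pos_of_neg (by positivity) hneg
      linarith
    · have key : ∀ t : ℝ, σ ^ 2 - 2 * σ * t * (G h).im ≤ σ ^ 2 * (1 + t ^ 2 * ‖h‖ ^ 2) := by
        intro t
        set m := 1 + ((t : ℂ) * Complex.I) • h with hm
        have hm1 : ‖m‖ ^ 2 ≤ 1 + t ^ 2 * ‖h‖ ^ 2 := by
          have e : star m * m = 1 + ((t ^ 2 : ℝ) : ℂ) • (h * h) := by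
            rw [hm, star_add, star_one, star_smul, hhs.star_eq, RCLike.star_def, map_mul,
              Complex.conj_ofReal, Complex.conj_I]
            simp only [add_mul, one_mul, mul_add, mul_one, smul_mul_assoc, mul_smul_comm,
              smul_add, smul_smul]
            rw [show (t : ℂ) * Complex.I * ((t : ℂ) * -Complex.I) = ((t ^ 2 : ℝ) : ℂ) by
              push_cast; linear_combination (-(t : ℂ) ^ 2) * Complex.I_sq]
            rw [show (t : ℂ) * -Complex.I = -((t : ℂ) * Complex.I) by ring, neg_smul]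
            abel
          rw [sq ‖m‖, ← CStarRing.norm_star_mul_self, e]
          refine (norm_add_le _ _).trans (add_le_add ?_ ?_)
          · exact (IsStarProjection.one (K →L[ℂ] K)).norm_le
          · rw [norm_smul, Complex.norm_real, Real.norm_of_nonneg (sq_nonneg t)]
            refine mul_le_mul_of_nonneg_left ?_ (sq_nonneg t)
            rw [sq]
            exact norm_mul_le _ _
        have h1 := pow_le_pow_left₀ (norm_nonneg _)
          (hGle m (add_mem (one_mem N) (smul_mem_vna _ hhN))) 2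
        rw [mul_pow, Complex.sq_norm, hm, map_add, map_smul, hG1, smul_eq_mul,
          Complex.normSq_apply] at h1
        simp only [Complex.add_re, Complex.add_im, Complex.mul_re, Complex.mul_im,
          Complex.ofReal_re, Complex.ofReal_im, Complex.I_re, Complex.I_im] at h1
        have h6 := mul_le_mul_of_nonneg_left hm1 (sq_nonneg σ)
        rw [← hm] at h1
        nlinarith [sq_nonneg (t * (G h).im), sq_nonneg (t * (G h).re)]
      by_contra hne
      rcases hσ0.eq_or_lt with h0 | h0
      · have := hGle h hhN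
        rw [← h0, zero_mul, norm_le_zero_iff] at this
        rw [this] at hne
        exact hne rfl
      · set b := (G h).im
        have := key (-b / (σ * ‖h‖ ^ 2 + σ))
        have hd : 0 < σ * ‖h‖ ^ 2 + σ := by positivity
        set t := -b / (σ * ‖h‖ ^ 2 + σ) with ht
        have e1 : t * (σ * ‖h‖ ^ 2 + σ) = -b := by rw [ht]; field_simp
        have ht0 : t ≠ 0 := div_ne_zero (neg_ne_zero.2 hne) hd.ne'
        have e2 : -(2 * σ * t * b) = 2 * σ * t * (t * (σ * ‖h‖ ^ 2 + σ)) := by rw [e1]; ring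
        nlinarith [e2, mul_pos (mul_pos h0 h0) (by positivity : (0 : ℝ) < t ^ 2),
          mul_nonneg (mul_nonneg (sq_nonneg σ) (sq_nonneg t)) (sq_nonneg ‖h‖)]
  -- domination
  have hdom : ∀ y ∈ N, (G (star y * y)).re ≤ ‖y ((1 / 2 : ℂ) • (star u W + V))‖ ^ 2 := by
    intro y hy
    have e1 : G (star y * y) = ⟪y (star u W), y V⟫ := by
      change ⟪W, u ((star y * y) V)⟫ = _
      rw [← ContinuousLinearMap.adjoint_inner_left u, ← ContinuousLinearMap.star_eq_adjoint]
      change ⟪star u W, star y (y V)⟫ = _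
      rw [ContinuousLinearMap.star_eq_adjoint y, ContinuousLinearMap.adjoint_inner_right]
    rw [e1, map_smul, map_add, norm_smul, mul_pow, norm_add_sq (𝕜 := ℂ), RCLike.re_to_complex]
    have h2 := norm_sub_sq (𝕜 := ℂ) (y (star u W)) (y V)
    rw [RCLike.re_to_complex] at h2
    have h3 := sq_nonneg ‖y (star u W) - y V‖
    norm_num
    linarith
  obtain ⟨U, hU⟩ := exists_vector_of_dominated hGpos _ hdom
  refine ⟨U, u U, ?_, (u.le_opNorm U).trans (mul_le_of_le_one_left (norm_nonneg _) hu1),
    fun x hx => ?_⟩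
  · have h1 := hU 1 (one_mem N)
    rw [hG1, one_apply_eq_self, inner_self_eq_norm_sq_to_K] at h1
    have h2 : σ = ‖U‖ ^ 2 := by
      have := congrArg Complex.re h1
      simpa [← Complex.ofReal_pow] using this
    exact h2 ▸ hση
  · have e1 : x = u * (star u * x) + d * (d * x) := by
      rw [← mul_assoc, ← mul_assoc d d, hdd, ← add_mul, add_sub_cancel, one_mul]
    change F x = _
    rw [e1, map_add, hdz _ (mul_mem hdN hx), add_zero]
    have := hU (star u * x) (mul_mem (star_mem huN) hx)
    change F (u * (star u * x)) = _ at this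
    rw [this, ← ContinuousLinearMap.adjoint_inner_right u, ← ContinuousLinearMap.star_eq_adjoint,
      ← e1]
    rfl

end Vale.Agent.P078.TypeIII.Singular
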